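import Vale.Agent.P313.H303.RCor

/-!
Composition of chains: run one chain, then one of two others, depending on the outcome.
-/

namespace Vale.Agent.P313.PT

open Finset CP Sel RI

/-- Code of a state of the second branch. -/
def e2 (N1 w : ℕ) : ℕ := if w < 2 then w else N1 + w

/-- Code of a state of the first chain. -/
def e0 (N1 N2 s1 s2 w : ℕ) : ℕ :=
  if w = 0 then s1 else if w = 1 then e2 N1 s2 else N1 + N2 + w

/-- One step. -/
def cδ (N1 N2 s1 s2 : ℕ) (d0 d1 d2 : ℕ → ℕ → ℕ) (s b : ℕ) : ℕ :=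
  if s < N1 then d1 s b
  else if s < N1 + N2 then e2 N1 (d2 (s - N1) b)
  else e0 N1 N2 s1 s2 (d0 (s - (N1 + N2)) b)

theorem e2_lt {N1 N2 w : ℕ} (h1 : 2 ≤ N1) (hw : w < N2) : e2 N1 w < N1 + N2 := by
  unfold e2
  split_ifs <;> omega

theorem e0_lt {N1 N2 N0 s1 s2 w : ℕ} (h1 : 2 ≤ N1) (hs1 : s1 < N1) (hs2 : s2 < N2)
    (hw : w < N0) : e0 N1 N2 s1 s2 w < N1 + N2 + N0 := by
  have := e2_lt (N1 := N1) h1 hs2
  unfold e0
  split_ifs <;> omega

theorem lf_e2 {k : ℕ} {a w : P313.Fn k} (ha : P313.LF a) (hw : P313.LF w) :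
    P313.LF (fun x c => e2 (a x c) (w x c)) :=
  P313.LF.ite (P313.LFP.lt hw (P313.LF.const 2)) hw (ha.add hw)

theorem lf_e0 {k : ℕ} {a b s t w : P313.Fn k} (ha : P313.LF a) (hb : P313.LF b)
    (hs : P313.LF s) (ht : P313.LF t) (hw : P313.LF w) :
    P313.LF (fun x c => e0 (a x c) (b x c) (s x c) (t x c) (w x c)) := by
  have h1 := P313.LF.ite (P313.LFP.lt hw (P313.LF.const 1)) hs
    (P313.LF.ite (P313.LFP.lt hw (P313.LF.const 2)) (lf_e2 ha ht) ((ha.add hb).add hw))
  refine h1.congr (fun x c => ?_)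
  unfold e0
  split_ifs <;> first | rfl | omega

/-- Run `Q0`, then `Q1` if it accepts, and `Q2` if it rejects. -/
def cond (Q0 Q1 Q2 : Chn) : Chn where
  N0 x := Q1.N0 x + Q2.N0 x + Q0.N0 x
  T x := Q0.T x + (Q1.T x + Q2.T x)
  st x := e0 (Q1.N0 x) (Q2.N0 x) (Q1.st x) (Q2.st x) (Q0.st x)
  δ x s b := cδ (Q1.N0 x) (Q2.N0 x) (Q1.st x) (Q2.st x) (Q0.δ x) (Q1.δ x) (Q2.δ x) s b
  lfN := (P313.LF.add Q1.lfN Q2.lfN).add Q0.lfN
  lfT := P313.LF.add Q0.lfT (P313.LF.add Q1.lfT Q2.lfT)
  lfst := lf_e0 Q1.lfN Q2.lfN Q1.lfst Q2.lfst Q0.lfst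
  lfδ := fun {k v b} hv hb => by
    have h1 := Q1.lfN.lf k
    have h2 := Q2.lfN.lf k
    exact P313.LF.ite (P313.LFP.lt hv h1) (Q1.lfδ hv hb)
      (P313.LF.ite (P313.LFP.lt hv (h1.add h2)) (lf_e2 h1 (Q2.lfδ (hv.sub h1) hb))
        (lf_e0 h1 h2 (Q1.lfst.lf k) (Q2.lfst.lf k) (Q0.lfδ (hv.sub (h1.add h2)) hb)))
  two_le x := by have := Q1.two_le x; omega
  T_pos x := by have := Q0.T_pos x; omega
  st_lt x := e0_lt (Q1.two_le x) (Q1.st_lt x) (Q2.st_lt x) (Q0.st_lt x)
  or_lt x v b := by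
    have n1 := Q1.two_le x
    have m1 := Q1.st_lt x
    have m2 := Q2.st_lt x
    unfold cδ
    split_ifs with h1 h2
    · rcases Q1.or_lt x v b with h | h
      · left; exact h
      · right; omega
    · right
      have : Q2.δ x (v - Q1.N0 x) b < Q2.N0 x := by
        rcases Q2.or_lt x (v - Q1.N0 x) b with h | h <;> omega
      have := e2_lt n1 this
      omega
    · have h3 := e2_lt n1 m2
      rcases Q0.or_lt x (v - (Q1.N0 x + Q2.N0 x)) b with h | h
      · rw [h]
        unfold e0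
        split_ifs <;> omega
      · right; exact e0_lt n1 m1 m2 h
  halts x := by
    have n1 := Q1.two_le x
    have hab : ∀ u < 2, ∀ b : Bool, cδ (Q1.N0 x) (Q2.N0 x) (Q1.st x) (Q2.st x) (Q0.δ x) (Q1.δ x)
        (Q2.δ x) u b.toNat = u := by
      intro u hu b
      unfold cδ
      rw [if_pos (by omega)]
      exact Chn_fix Q1 x u hu b
    refine halts_of_abs hab ?_
    set cs : ℕ → Bool → ℕ := fun v (b : Bool) =>
      cδ (Q1.N0 x) (Q2.N0 x) (Q1.st x) (Q2.st x) (Q0.δ x) (Q1.δ x) (Q2.δ x) v b.toNat with hcs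
    have a1 : ∀ i v, v < Q1.N0 x → Abs (Q1.cs x) i v → Abs cs i v := by
      intro i
      induction i with
      | zero => intro v hv h; exact Abs.fix h.zero (hab v h.zero) 0
      | succ i ih =>
        intro v hv h
        refine Abs.of_step (fun b => ?_)
        have e : cs v b = Q1.cs x v b := by
          show cδ _ _ _ _ _ _ _ v b.toNat = _
          unfold cδ
          rw [if_pos hv]; rfl
        rw [e]
        exact ih _ (Q1.closed x le_rfl v hv b) (h.succ b)
    have a2 : ∀ i v, v < Q2.N0 x → Abs (Q2.cs x) i v → Abs cs i (e2 (Q1.N0 x) v) := by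
      intro i
      induction i with
      | zero =>
        intro v hv h
        have h0 := h.zero
        have e : e2 (Q1.N0 x) v = v := by unfold e2; rw [if_pos h0]
        rw [e]
        exact Abs.fix h0 (hab v h0) 0
      | succ i ih =>
        intro v hv h
        by_cases h0 : v < 2
        · have e : e2 (Q1.N0 x) v = v := by unfold e2; rw [if_pos h0]
          rw [e]
          exact Abs.fix h0 (hab v h0) _
        · refine Abs.of_step (fun b => ?_)
          have e : cs (e2 (Q1.N0 x) v) b = e2 (Q1.N0 x) (Q2.cs x v b) := by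
            show cδ _ _ _ _ _ _ _ _ b.toNat = _
            have e1 : e2 (Q1.N0 x) v = Q1.N0 x + v := by unfold e2; rw [if_neg h0]
            rw [e1]
            unfold cδ
            rw [if_neg (by omega), if_pos (by omega), Nat.add_sub_cancel_left]; rfl
          rw [e]
          exact ih _ (Q2.closed x le_rfl v hv b) (h.succ b)
    have b1 : Abs cs (Q1.T x + Q2.T x) (Q1.st x) :=
      Abs.mono hab (a1 _ _ (Q1.st_lt x) (Chn_abs Q1 x le_rfl)) (by omega)
    have b2 : Abs cs (Q1.T x + Q2.T x) (e2 (Q1.N0 x) (Q2.st x)) :=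
      Abs.mono hab (a2 _ _ (Q2.st_lt x) (Chn_abs Q2 x le_rfl)) (by omega)
    have a0 : ∀ i v, v < Q0.N0 x → Abs (Q0.cs x) i v →
        Abs cs (i + (Q1.T x + Q2.T x)) (e0 (Q1.N0 x) (Q2.N0 x) (Q1.st x) (Q2.st x) v) := by
      have base : ∀ i v, v < 2 →
          Abs cs (i + (Q1.T x + Q2.T x)) (e0 (Q1.N0 x) (Q2.N0 x) (Q1.st x) (Q2.st x) v) := by
        intro i v hv
        unfold e0
        rcases (show v = 0 ∨ v = 1 by omega) with rfl | rfl
        · rw [if_pos rfl]; exact Abs.mono hab b1 (by omega)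
        · rw [if_neg (by norm_num), if_pos rfl]; exact Abs.mono hab b2 (by omega)
      intro i
      induction i with
      | zero => intro v hv h; exact base 0 v h.zero
      | succ i ih =>
        intro v hv h
        by_cases h0 : v < 2
        · exact base _ v h0
        · have e4 : i + 1 + (Q1.T x + Q2.T x) = i + (Q1.T x + Q2.T x) + 1 := by ring
          rw [e4]
          refine Abs.of_step (fun b => ?_)
          have e : cs (e0 (Q1.N0 x) (Q2.N0 x) (Q1.st x) (Q2.st x) v) b =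
              e0 (Q1.N0 x) (Q2.N0 x) (Q1.st x) (Q2.st x) (Q0.cs x v b) := by
            show cδ _ _ _ _ _ _ _ _ b.toNat = _
            have e1 : e0 (Q1.N0 x) (Q2.N0 x) (Q1.st x) (Q2.st x) v =
                Q1.N0 x + Q2.N0 x + v := by
              unfold e0; rw [if_neg (by omega), if_neg (by omega)]
            rw [e1]
            unfold cδ
            rw [if_neg (by omega), if_neg (by omega), Nat.add_sub_cancel_left]; rfl
          rw [e]
          exact ih _ (Q0.closed x le_rfl v hv b) (h.succ b)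
    exact a0 _ _ (Q0.st_lt x) (Chn_abs Q0 x le_rfl)

end Vale.Agent.P313.PT
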