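import Vale.Agent.P313.R2.H284.Ring

/-!
Zero tests of integer polynomials in acceptance probabilities.
-/

namespace Vale.Agent.P313.PT

open Finset CP Sel RI

/-- The zero test. -/
theorem dtisp_rep {κ : ℕ → ℕ} (hκ : LFx (fun x => κ x.length)) (hκ1 : ∀ n, 1 ≤ κ n)
    {f : List Bool → ℚ} (hf : Rep f) (e : ℕ) :
    ∃ A : Set (List Bool), DTISP (fun n => (n + 2) ^ κ n)
      (fun n => Nat.log 2 (n + 2) ^ 2 / (κ n * (Nat.log 2 (κ n) + 1)) +
        κ n * Nat.log 2 (n + 2)) A ∧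
      ∀ x : List Bool,
        (1 / ((x.length : ℚ) + 2) ^ (e * κ x.length) ≤ f x → x ∈ A) ∧ (f x ≤ 0 → x ∉ A) := by
  obtain ⟨s, A, B, hA, hB, h⟩ := hf
  have hm : LFx (fun x => s + e * κ x.length * (Nat.log 2 (x.length + 2) + 1)) := by
    have h1 : LFx (fun x => Nat.log 2 (x.length + 2) + 1) :=
      (P313.LF.log2 (P313.LF.len.add (P313.LF.const 2))).succ
    have h2 : LFx (fun x => e * κ x.length * (Nat.log 2 (x.length + 2) + 1)) :=
      P313.LF.mul (P313.LF.mul (P313.LF.const e) hκ) h1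
    exact P313.LF.add (P313.LF.const s) h2
  obtain ⟨QL, hQL⟩ := hA.avg IsPr.zero
  obtain ⟨QR, hQR⟩ := hB.avg (IsPr.tiny hm)
  obtain ⟨L, hL, hx⟩ := dtisp_chains hκ hκ1 QL QR (s + 2 + 2 * e)
  refine ⟨L, hL, fun x => ?_⟩
  obtain ⟨g1, g2⟩ := hx x
  have eL : pr QL x = (A x + 0) / 2 := hQL x
  have eR : pr QR x = (B x + 1 / 2 ^ ((s + e * κ x.length * (Nat.log 2 (x.length + 2) + 1)) + 1)) /
    2 := hQR x
  rw [eL, eR] at g1 g2
  clear eL eR hQL hQR hx hL
  have hk := hκ1 x.length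
  generalize κ x.length = k at *
  have hN : ((x.length + 2 : ℕ) : ℚ) = (x.length : ℚ) + 2 := by push_cast; ring
  have hN2 : 2 ≤ x.length + 2 := by omega
  rw [← hN] at g1 g2 ⊢
  generalize x.length + 2 = n at *
  have hl1 : n ≤ 2 ^ (Nat.log 2 n + 1) := (Nat.lt_pow_succ_log_self (by norm_num) n).le
  have hl2 : 2 ^ (Nat.log 2 n + 1) ≤ n ^ 2 := by
    have := Nat.pow_log_le_self 2 (show n ≠ 0 by omega)
    rw [pow_succ, sq]
    exact Nat.mul_le_mul this hN2
  have hU1 : 4 * (2 ^ s * n ^ (e * k)) ≤ 2 ^ (s + e * k * (Nat.log 2 n + 1) + 2) := by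
    have h1 : n ^ (e * k) ≤ 2 ^ (e * k * (Nat.log 2 n + 1)) := by
      rw [mul_comm (e * k), pow_mul 2 (Nat.log 2 n + 1) (e * k)]
      exact Nat.pow_le_pow_left hl1 _
    rw [pow_add, pow_add]
    calc 4 * (2 ^ s * n ^ (e * k)) = 2 ^ s * n ^ (e * k) * 2 ^ 2 := by ring
      _ ≤ _ := Nat.mul_le_mul_right _ (Nat.mul_le_mul_left _ h1)
  have hU2 : 2 ^ (s + e * k * (Nat.log 2 n + 1) + 2) ≤ n ^ ((s + 2 + 2 * e) * k) := by
    have h1 : 2 ^ (e * k * (Nat.log 2 n + 1)) ≤ n ^ (2 * (e * k)) := by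
      rw [mul_comm (e * k), pow_mul 2 (Nat.log 2 n + 1) (e * k), pow_mul n 2 (e * k)]
      exact Nat.pow_le_pow_left hl2 _
    calc 2 ^ (s + e * k * (Nat.log 2 n + 1) + 2) =
          2 ^ (s + 2) * 2 ^ (e * k * (Nat.log 2 n + 1)) := by rw [← pow_add]; congr 1; ring
      _ ≤ n ^ (s + 2) * n ^ (2 * (e * k)) :=
          Nat.mul_le_mul (Nat.pow_le_pow_left hN2 _) h1
      _ = n ^ (s + 2 + 2 * (e * k)) := by rw [← pow_add]
      _ ≤ n ^ ((s + 2 + 2 * e) * k) := by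
          apply Nat.pow_le_pow_right (by omega)
          have h2 : s + 2 ≤ (s + 2) * k := Nat.le_mul_of_pos_right _ hk
          calc s + 2 + 2 * (e * k) ≤ (s + 2) * k + 2 * (e * k) := by omega
            _ = (s + 2 + 2 * e) * k := by ring
  have hU1' : 4 * ((2 : ℚ) ^ s * (n : ℚ) ^ (e * k)) ≤
      2 ^ (s + e * k * (Nat.log 2 n + 1) + 1) * 2 := by
    rw [← pow_succ]
    exact_mod_cast hU1
  have hU2' : (2 : ℚ) ^ (s + e * k * (Nat.log 2 n + 1) + 1) * 2 ≤
      (n : ℚ) ^ ((s + 2 + 2 * e) * k) := by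
    rw [← pow_succ]
    exact_mod_cast hU2
  have hn0 : (0 : ℚ) < n := by exact_mod_cast (show 0 < n by omega)
  have hW : (0 : ℚ) < 2 ^ s * (n : ℚ) ^ (e * k) := by positivity
  have hG : (0 : ℚ) < (n : ℚ) ^ (e * k) := by positivity
  have hs : (0 : ℚ) < 2 ^ s := by positivity
  have hfx := h x
  generalize (n : ℚ) ^ ((s + 2 + 2 * e) * k) = V at *
  generalize (2 : ℚ) ^ (s + e * k * (Nat.log 2 n + 1) + 1) = U at *
  generalize (n : ℚ) ^ (e * k) = G at *
  generalize (2 : ℚ) ^ s = S at *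
  have hU0 : 0 < U := by linarith
  have hV0 : 0 < V := by linarith
  have hV : 1 / V ≤ 1 / (U * 2) := one_div_le_one_div_of_le (by linarith) hU2'
  have hUW : 1 / (U * 2) ≤ 1 / (4 * (S * G)) := one_div_le_one_div_of_le (by linarith) hU1'
  have e1 : 1 / (U * 2) = 1 / U / 2 := by rw [div_div]
  have e2 : 1 / (4 * (S * G)) = 1 / (S * G) / 4 := by rw [mul_comm 4, div_div]
  constructor
  · intro hg
    apply g1
    rw [hfx] at hg
    have h3 : 1 / (S * G) ≤ A x - B x := by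
      rw [div_le_iff₀ hW]
      rw [div_le_iff₀ hG] at hg
      calc (1 : ℚ) ≤ S * (A x - B x) * G := hg
        _ = (A x - B x) * (S * G) := by ring
    linarith
  · intro h0
    apply g2
    rw [hfx] at h0
    have h3 : A x - B x ≤ 0 := by
      by_contra hc
      have := mul_pos hs (not_le.1 hc)
      linarith
    linarith

/-- The same with real exponents. -/
theorem dtisp_repB (a b : ℕ) (ha : 0 < a) (hb : 2 * a < b) {f : List Bool → ℚ} (hf : Rep f)
    (e : ℕ) :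
    ∃ A : Set (List Bool),
      (∃ (D : RTM) (C : ℝ), D.Decides A
        (fun n => 2 ^ (C * Real.logb 2 (n + 2) ^ (1 + (a : ℝ) / b)))
        (fun n => C * Real.logb 2 (n + 2) ^ (2 - (a : ℝ) / b) /
          Real.logb 2 (Real.logb 2 (n + 2) + 1))) ∧
      ∀ x : List Bool,
        (2 ^ (-(e * Real.logb 2 ((x.length : ℝ) + 2) ^ (1 + (a : ℝ) / b))) ≤ ((f x : ℚ) : ℝ) →
            x ∈ A) ∧ (f x ≤ 0 → x ∉ A) := by
  obtain ⟨A, hA, h⟩ := dtisp_rep (κ := fun n => rt a b (Nat.log 2 (n + 2))) (lfx_rt a b)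
    (fun n => rt_pos (Nat.le_log_of_pow_le (by norm_num) (by omega)) (by omega)) hf (4 * e)
  refine ⟨A, dtisp_beta ha hb (fun n => rt_spec (by omega)) hA, fun x => ⟨fun hx => ?_, (h x).2⟩⟩
  have hg := gap_le (n := x.length) ha hb e
    (rt_spec (a := a) (b := b) (L := Nat.log 2 (x.length + 2)) (by omega)).2
  apply (h x).1
  rw [← Rat.cast_le (K := ℝ)]
  push_cast
  exact hg.trans hx

/-! ### Corollaries -/

/-- The number `2 ^ (- κ(n) log n)`. -/
def small (κ : ℕ → ℕ) (x : List Bool) : ℚ := 1 / 2 ^ (κ x.length * Nat.log 2 (x.length + 2))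

/-- The small number and the acceptance probabilities of the machines. -/
def point (κ : ℕ → ℕ) {k : ℕ} (M : Fin k → RTM) (c : Fin k → ℕ) (x : List Bool) :
    Option (Fin k) → ℚ
  | none => small κ x
  | some i => (M i).probAt x true ((x.length + 2) ^ c i) 0 (M i).init

theorem log_pos' (n : ℕ) : 1 ≤ Nat.log 2 (n + 2) :=
  Nat.le_log_of_pow_le (by norm_num) (by omega)

theorem isPr_small {κ : ℕ → ℕ} (hκ : LFx (fun x => κ x.length)) (hκ1 : ∀ n, 1 ≤ κ n) :
    IsPr (small κ) := by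
  have h1 : LFx (fun x => κ x.length * Nat.log 2 (x.length + 2) - 1) := by
    have h2 : LFx (fun x => κ x.length * Nat.log 2 (x.length + 2)) :=
      P313.LF.mul hκ (P313.LF.log2 (P313.LF.len.add (P313.LF.const 2)))
    exact P313.LF.sub h2 (P313.LF.const 1)
  obtain ⟨Q, hQ⟩ := IsPr.tiny h1
  refine ⟨Q, fun x => (hQ x).trans ?_⟩
  have h3 : 1 ≤ κ x.length * Nat.log 2 (x.length + 2) :=
    Nat.mul_pos (hκ1 _) (log_pos' _)
  show 1 / 2 ^ (κ x.length * Nat.log 2 (x.length + 2) - 1 + 1) = small κ x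
  unfold small
  rw [Nat.sub_add_cancel h3]

theorem small_pow_le {κ : ℕ → ℕ} (e : ℕ) (x : List Bool) :
    small κ x ^ (4 * e) ≤ (1 / ((x.length : ℚ) + 2) ^ (e * κ x.length)) ^ 2 ∧
      1 / ((x.length : ℚ) + 2) ^ (4 * e * κ x.length) ≤ small κ x ^ (4 * e) := by
  have hL := log_pos' x.length
  have hN : ((x.length + 2 : ℕ) : ℚ) = (x.length : ℚ) + 2 := by push_cast; ring
  have hN2 : 2 ≤ x.length + 2 := by omega
  unfold small
  rw [← hN]
  generalize κ x.length = k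
  generalize x.length + 2 = n at *
  have h1 : n ≤ 2 ^ (2 * Nat.log 2 n) :=
    (Nat.lt_pow_succ_log_self (by norm_num) n).le.trans
      (Nat.pow_le_pow_right (by norm_num) (by omega))
  have h2 : 2 ^ Nat.log 2 n ≤ n := Nat.pow_log_le_self 2 (by omega)
  have hn0 : (0 : ℚ) < n := by exact_mod_cast (show 0 < n by omega)
  constructor
  · rw [div_pow, div_pow, one_pow, one_pow, ← pow_mul, ← pow_mul]
    apply one_div_le_one_div_of_le (by positivity)
    have h3 : n ^ (e * k * 2) ≤ 2 ^ (k * Nat.log 2 n * (4 * e)) := by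
      calc n ^ (e * k * 2) ≤ (2 ^ (2 * Nat.log 2 n)) ^ (e * k * 2) := Nat.pow_le_pow_left h1 _
        _ = 2 ^ (k * Nat.log 2 n * (4 * e)) := by rw [← pow_mul]; congr 1; ring
    exact_mod_cast h3
  · rw [div_pow, one_pow, ← pow_mul]
    apply one_div_le_one_div_of_le (by positivity)
    have h3 : 2 ^ (k * Nat.log 2 n * (4 * e)) ≤ n ^ (4 * e * k) := by
      calc 2 ^ (k * Nat.log 2 n * (4 * e)) = (2 ^ Nat.log 2 n) ^ (4 * e * k) := by
            rw [← pow_mul]; congr 1; ring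
        _ ≤ _ := Nat.pow_le_pow_left h2 _
    exact_mod_cast h3

/-- The zero test of integer polynomials in acceptance probabilities. -/
theorem dtisp_poly {κ : ℕ → ℕ} (hκ : LogConstructible κ) (hκ1 : ∀ n, 1 ≤ κ n)
    {k : ℕ} (M : Fin k → RTM) (c : Fin k → ℕ)
    (hM : ∀ i, (M i).Bounded (fun n => (n + 2) ^ c i) (fun n => c i * Nat.log 2 (n + 2)))
    (P : MvPolynomial (Option (Fin k)) ℤ) (e : ℕ) :
    ∃ A : Set (List Bool), DTISP (fun n => (n + 2) ^ κ n)
      (fun n => Nat.log 2 (n + 2) ^ 2 / (κ n * (Nat.log 2 (κ n) + 1)) +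
        κ n * Nat.log 2 (n + 2)) A ∧
      ∀ x : List Bool,
        (1 / ((x.length : ℚ) + 2) ^ (e * κ x.length) ≤ MvPolynomial.aeval (point κ M c x) P →
          x ∈ A) ∧
        (MvPolynomial.aeval (point κ M c x) P ≤ 0 → x ∉ A) := by
  have hκ' := lfx_of_constructible hκ
  have h := rep_aeval (p := fun i x => point κ M c x i) (fun i => by
    cases i with
    | none => exact isPr_small hκ' hκ1
    | some i => exact IsPr.machine (M i) (c i) (hM i)) P
  exact dtisp_rep hκ' hκ1 h e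

/-- The zero test with real exponents. -/
theorem dtisp_polyB (a b : ℕ) (ha : 0 < a) (hb : 2 * a < b)
    {k : ℕ} (M : Fin k → RTM) (c : Fin k → ℕ)
    (hM : ∀ i, (M i).Bounded (fun n => (n + 2) ^ c i) (fun n => c i * Nat.log 2 (n + 2)))
    (P : MvPolynomial (Fin k) ℤ) (e : ℕ) :
    ∃ A : Set (List Bool),
      (∃ (D : RTM) (C : ℝ), D.Decides A
        (fun n => 2 ^ (C * Real.logb 2 (n + 2) ^ (1 + (a : ℝ) / b)))
        (fun n => C * Real.logb 2 (n + 2) ^ (2 - (a : ℝ) / b) /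
          Real.logb 2 (Real.logb 2 (n + 2) + 1))) ∧
      ∀ x : List Bool,
        (2 ^ (-(e * Real.logb 2 ((x.length : ℝ) + 2) ^ (1 + (a : ℝ) / b))) ≤
          ((MvPolynomial.aeval
            (fun i => (M i).probAt x true ((x.length + 2) ^ c i) 0 (M i).init) P : ℚ) : ℝ) →
            x ∈ A) ∧
        (MvPolynomial.aeval
          (fun i => (M i).probAt x true ((x.length + 2) ^ c i) 0 (M i).init) P ≤ 0 → x ∉ A) :=
  dtisp_repB a b ha hb
    (rep_aeval (p := fun i x => (M i).probAt x true ((x.length + 2) ^ c i) 0 (M i).init)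
      (fun i => IsPr.machine (M i) (c i) (hM i)) P) e

theorem set_eq {A A' : Set (List Bool)} (h1 : ∀ x, x ∈ A → x ∈ A') (h2 : ∀ x, x ∉ A → x ∉ A') :
    A = A' := by
  ext x
  exact ⟨h1 x, fun h => by by_contra hc; exact h2 x hc h⟩

/-- One-sided machines with small success probability. -/
theorem one_sided {κ : ℕ → ℕ} (hκ : LogConstructible κ) (hκ1 : ∀ n, 1 ≤ κ n)
    (M : RTM) (c e : ℕ)
    (hM : M.Bounded (fun n => (n + 2) ^ c) (fun n => c * Nat.log 2 (n + 2)))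
    (A : Set (List Bool))
    (hA : ∀ x : List Bool,
      (x ∈ A → 1 / ((x.length : ℚ) + 2) ^ (e * κ x.length) ≤
        M.probAt x true ((x.length + 2) ^ c) 0 M.init) ∧
      (x ∉ A → M.probAt x true ((x.length + 2) ^ c) 0 M.init = 0)) :
    DTISP (fun n => (n + 2) ^ κ n)
      (fun n => Nat.log 2 (n + 2) ^ 2 / (κ n * (Nat.log 2 (κ n) + 1)) +
        κ n * Nat.log 2 (n + 2)) A := by
  obtain ⟨A', hA', h⟩ := dtisp_rep (lfx_of_constructible hκ) hκ1
    (Rep.of (IsPr.machine M c hM)) e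
  rw [set_eq (A := A) (A' := A') (fun x hx => (h x).1 ((hA x).1 hx))
    (fun x hx => (h x).2 ((hA x).2 hx).le)]
  exact hA'

/-- One-sided machines with small success probability, real exponents. -/
theorem one_sidedB (a b : ℕ) (ha : 0 < a) (hb : 2 * a < b) (M : RTM) (c e : ℕ)
    (hM : M.Bounded (fun n => (n + 2) ^ c) (fun n => c * Nat.log 2 (n + 2)))
    (A : Set (List Bool))
    (hA : ∀ x : List Bool,
      (x ∈ A → 2 ^ (-(e * Real.logb 2 ((x.length : ℝ) + 2) ^ (1 + (a : ℝ) / b))) ≤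
        (M.probAt x true ((x.length + 2) ^ c) 0 M.init : ℝ)) ∧
      (x ∉ A → M.probAt x true ((x.length + 2) ^ c) 0 M.init = 0)) :
    ∃ (D : RTM) (C : ℝ), D.Decides A
        (fun n => 2 ^ (C * Real.logb 2 (n + 2) ^ (1 + (a : ℝ) / b)))
        (fun n => C * Real.logb 2 (n + 2) ^ (2 - (a : ℝ) / b) /
          Real.logb 2 (Real.logb 2 (n + 2) + 1)) := by
  obtain ⟨A', hA', h⟩ := dtisp_repB a b ha hb (Rep.of (IsPr.machine M c hM)) e
  rw [set_eq (A := A) (A' := A') (fun x hx => (h x).1 ((hA x).1 hx))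
    (fun x hx => (h x).2 ((hA x).2 hx).le)]
  exact hA'

/-- Equal acceptance probabilities. -/
theorem equality {κ : ℕ → ℕ} (hκ : LogConstructible κ) (hκ1 : ∀ n, 1 ≤ κ n)
    (M₁ M₂ : RTM) (c₁ c₂ e : ℕ)
    (h1 : M₁.Bounded (fun n => (n + 2) ^ c₁) (fun n => c₁ * Nat.log 2 (n + 2)))
    (h2 : M₂.Bounded (fun n => (n + 2) ^ c₂) (fun n => c₂ * Nat.log 2 (n + 2)))
    (A : Set (List Bool))
    (hA : ∀ x : List Bool,
      (x ∈ A → M₁.probAt x true ((x.length + 2) ^ c₁) 0 M₁.init =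
        M₂.probAt x true ((x.length + 2) ^ c₂) 0 M₂.init) ∧
      (x ∉ A → 1 / ((x.length : ℚ) + 2) ^ (e * κ x.length) ≤
        |M₁.probAt x true ((x.length + 2) ^ c₁) 0 M₁.init -
          M₂.probAt x true ((x.length + 2) ^ c₂) 0 M₂.init|)) :
    DTISP (fun n => (n + 2) ^ κ n)
      (fun n => Nat.log 2 (n + 2) ^ 2 / (κ n * (Nat.log 2 (κ n) + 1)) +
        κ n * Nat.log 2 (n + 2)) A := by
  have hκ' := lfx_of_constructible hκ
  obtain ⟨p, hp⟩ : ∃ p : List Bool → ℚ, p = fun x =>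
    M₁.probAt x true ((x.length + 2) ^ c₁) 0 M₁.init := ⟨_, rfl⟩
  obtain ⟨q, hq⟩ : ∃ q : List Bool → ℚ, q = fun x =>
    M₂.probAt x true ((x.length + 2) ^ c₂) 0 M₂.init := ⟨_, rfl⟩
  have r1 : p ∈ repRing := by rw [hp]; exact Rep.of (IsPr.machine M₁ c₁ h1)
  have r2 : q ∈ repRing := by rw [hq]; exact Rep.of (IsPr.machine M₂ c₂ h2)
  have r3 : small κ ∈ repRing := Rep.of (isPr_small hκ' hκ1)
  have r4 : small κ ^ (4 * e) - (p - q) ^ 2 ∈ repRing :=
    sub_mem (pow_mem r3 _) (pow_mem (sub_mem r1 r2) 2)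
  obtain ⟨A', hA', h⟩ := dtisp_rep hκ' hκ1 r4 (4 * e)
  have hv : ∀ x, (small κ ^ (4 * e) - (p - q) ^ 2 : List Bool → ℚ) x =
      small κ x ^ (4 * e) - (p x - q x) ^ 2 := fun x => rfl
  rw [set_eq (A := A) (A' := A') (fun x hx => (h x).1 ?_) (fun x hx => (h x).2 ?_)]
  · exact hA'
  · rw [hv]
    have h3 := (hA x).1 hx
    have h4 : p x - q x = 0 := by rw [hp, hq]; exact sub_eq_zero.2 h3
    rw [h4]
    have := (small_pow_le (κ := κ) e x).2
    simpa using this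
  · rw [hv]
    have h3 := (hA x).2 hx
    have h4 : (1 / ((x.length : ℚ) + 2) ^ (e * κ x.length)) ^ 2 ≤ (p x - q x) ^ 2 := by
      rw [← sq_abs (p x - q x)]
      refine pow_le_pow_left₀ (by positivity) ?_ 2
      rw [hp, hq]
      exact h3
    have := (small_pow_le (κ := κ) e x).1
    linarith

end Vale.Agent.P313.PT
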