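import Vale.Agent.P313.R2.H284.Main

/-!
Intermediate states: a state which is reached with probability `W ^ (- (2 ^ i + 1))` is reached
through `2 ^ i` segments of probability at least `W ^ (-2)`.
-/

namespace Vale.Agent.P313.SV

open Finset

/-- Reachability by `2 ^ i` edges. -/
def rch (N : ℕ) (E : ℕ → ℕ → Prop) : ℕ → ℕ → ℕ → Prop
  | 0, v, u => E v u
  | i + 1, v, u => ∃ w < N, rch N E i v w ∧ rch N E i w u

section

variable {cs : ℕ → Bool → ℕ} {N : ℕ}

theorem hit_self (v : ℕ) : hit cs v 0 v = 1 := by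
  show (if v = v then (1 : ℚ) else 0) = 1
  rw [if_pos rfl]

/-- The first time at which the hitting probability of `u` is at least `a`. -/
theorem mid_sum (hcl : Closed cs N) (u : ℕ) {a : ℚ} (ha : 0 < a) (ha1 : a ≤ 1) : ∀ c, ∀ v < N,
    hit cs u c v ≤ 2 * a →
    hit cs u c v ≤ 2 * a * ∑ t ∈ range (c + 1), ∑ w ∈ range N,
      (if a ≤ hit cs u (c - t) w then hit cs w t v else 0) := by
  intro c
  have key : ∀ c, ∀ v < N, a ≤ hit cs u c v →
      1 ≤ ∑ t ∈ range (c + 1), ∑ w ∈ range N,
        (if a ≤ hit cs u (c - t) w then hit cs w t v else 0) := by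
    intro c v hv h
    have h1 : ∀ t ∈ range (c + 1), 0 ≤ ∑ w ∈ range N,
        (if a ≤ hit cs u (c - t) w then hit cs w t v else 0) := fun t _ =>
      sum_nonneg fun w _ => by split_ifs; exacts [hit_nonneg _ _ _, le_rfl]
    refine le_trans ?_ (single_le_sum h1 (mem_range.2 (Nat.succ_pos c)))
    have h2 : ∀ w ∈ range N, 0 ≤ (if a ≤ hit cs u (c - 0) w then hit cs w 0 v else 0) :=
      fun w _ => by split_ifs; exacts [hit_nonneg _ _ _, le_rfl]
    refine le_trans ?_ (single_le_sum h2 (mem_range.2 hv))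
    rw [Nat.sub_zero, if_pos h, hit_self]
  induction c with
  | zero =>
    intro v hv h
    by_cases h1 : a ≤ hit cs u 0 v
    · have h2 := key 0 v hv h1
      refine h.trans ?_
      nlinarith
    · have h3 : hit cs u 0 v = 0 := by
        have e : hit cs u 0 v = if v = u then 1 else 0 := rfl
        rw [e] at h1 ⊢
        by_cases h4 : v = u
        · rw [if_pos h4] at h1; exact absurd ha1 h1
        · rw [if_neg h4]
      rw [h3]
      refine mul_nonneg (by linarith) (sum_nonneg fun t _ => sum_nonneg fun w _ => ?_)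
      split_ifs; exacts [hit_nonneg _ _ _, le_rfl]
  | succ c ih =>
    intro v hv h
    by_cases h1 : a ≤ hit cs u (c + 1) v
    · have h2 := key (c + 1) v hv h1
      refine h.trans ?_
      nlinarith
    · have e : hit cs u (c + 1) v = (hit cs u c (cs v false) + hit cs u c (cs v true)) / 2 := rfl
      have n0 := hit_nonneg (cs := cs) u c (cs v false)
      have n1 := hit_nonneg (cs := cs) u c (cs v true)
      have i0 := ih _ (hcl v hv false) (by rw [e] at h1; linarith)
      have i1 := ih _ (hcl v hv true) (by rw [e] at h1; linarith)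
      have e2 : ∑ t ∈ range (c + 1 + 1), ∑ w ∈ range N,
          (if a ≤ hit cs u (c + 1 - t) w then hit cs w t v else 0) =
          (∑ t ∈ range (c + 1), ∑ w ∈ range N,
            (if a ≤ hit cs u (c - t) w then hit cs w (t + 1) v else 0)) +
          ∑ w ∈ range N, (if a ≤ hit cs u (c + 1 - 0) w then hit cs w 0 v else 0) := by
        rw [sum_range_succ']
        congr 1
        refine sum_congr rfl fun t _ => sum_congr rfl fun w _ => ?_
        rw [Nat.add_sub_add_right]
      have e3 : ∑ t ∈ range (c + 1), ∑ w ∈ range N,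
            (if a ≤ hit cs u (c - t) w then hit cs w (t + 1) v else 0) =
          ((∑ t ∈ range (c + 1), ∑ w ∈ range N,
            (if a ≤ hit cs u (c - t) w then hit cs w t (cs v false) else 0)) +
          (∑ t ∈ range (c + 1), ∑ w ∈ range N,
            (if a ≤ hit cs u (c - t) w then hit cs w t (cs v true) else 0))) / 2 := by
        rw [← sum_add_distrib, sum_div]
        refine sum_congr rfl fun t _ => ?_
        rw [← sum_add_distrib, sum_div]
        refine sum_congr rfl fun w _ => ?_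
        by_cases h5 : a ≤ hit cs u (c - t) w
        · rw [if_pos h5, if_pos h5, if_pos h5]; rfl
        · rw [if_neg h5, if_neg h5, if_neg h5]; ring
      have n3 : 0 ≤ ∑ w ∈ range N,
          (if a ≤ hit cs u (c + 1 - 0) w then hit cs w 0 v else 0) := sum_nonneg fun w _ => by
        split_ifs; exacts [hit_nonneg _ _ _, le_rfl]
      rw [e, e2, e3]
      generalize (∑ t ∈ range (c + 1), ∑ w ∈ range N,
            (if a ≤ hit cs u (c - t) w then hit cs w t (cs v false) else 0)) = S0 at *
      generalize (∑ t ∈ range (c + 1), ∑ w ∈ range N,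
            (if a ≤ hit cs u (c - t) w then hit cs w t (cs v true) else 0)) = S1 at *
      generalize ∑ w ∈ range N,
          (if a ≤ hit cs u (c + 1 - 0) w then hit cs w 0 v else 0) = S2 at *
      nlinarith [mul_nonneg ha.le n3]

/-- An intermediate state. -/
theorem mid (hcl : Closed cs N) {u c v : ℕ} (hv : v < N) {q W : ℚ} (hq : 0 < q) (hq1 : q ≤ 1)
    (hW : 2 * (N : ℚ) * (c + 1) ≤ W) (h : W * q ^ 2 ≤ hit cs u c v) :
    ∃ t ≤ c, ∃ w < N, q ≤ hit cs w t v ∧ q ≤ hit cs u (c - t) w := by
  by_cases h1 : q ≤ hit cs u c v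
  · exact ⟨0, Nat.zero_le _, v, hv, by rw [hit_self]; exact hq1, by rw [Nat.sub_zero]; exact h1⟩
  by_contra hcon
  push Not at hcon
  have h2 := mid_sum hcl u hq hq1 c v hv (by linarith)
  have hN : (0 : ℚ) < N := by exact_mod_cast (show 0 < N by omega)
  have h3 : ∑ t ∈ range (c + 1), ∑ w ∈ range N,
      (if q ≤ hit cs u (c - t) w then hit cs w t v else 0) <
      ∑ t ∈ range (c + 1), ∑ w ∈ range N, q := by
    refine sum_lt_sum_of_nonempty ⟨0, mem_range.2 (Nat.succ_pos c)⟩ fun t ht => ?_
    refine sum_lt_sum_of_nonempty ⟨v, mem_range.2 hv⟩ fun w hw => ?_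
    split_ifs with h4
    · by_contra h5
      exact absurd h4 (not_le.2 (hcon t (by have := mem_range.1 ht; omega) w (mem_range.1 hw)
        (not_lt.1 h5)))
    · exact hq
  rw [sum_const, sum_const, card_range, card_range, nsmul_eq_mul, nsmul_eq_mul] at h3
  push_cast at h3
  have h4 : hit cs u c v < 2 * q * (((c : ℚ) + 1) * (N * q)) :=
    lt_of_le_of_lt h2 (mul_lt_mul_of_pos_left h3 (by linarith))
  have h5 : 2 * q * (((c : ℚ) + 1) * (N * q)) ≤ W * q ^ 2 := by
    have := mul_le_mul_of_nonneg_right hW (sq_nonneg q)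
    linarith
  linarith

/-- Completeness. -/
theorem rch_of_hit (hcl : Closed cs N) {E : ℕ → ℕ → Prop} {T : ℕ} {W : ℚ} (hW1 : 1 ≤ W)
    (hW : 2 * (N : ℚ) * (T + 1) ≤ W)
    (hE : ∀ v < N, ∀ u < N, ∀ c ≤ T, (1 / W) ^ 2 ≤ hit cs u c v → E v u) :
    ∀ i, ∀ v < N, ∀ u < N, ∀ c ≤ T, (1 / W) ^ (2 ^ i + 1) ≤ hit cs u c v → rch N E i v u := by
  have hW0 : 0 < W := by linarith
  have h01 : 0 < 1 / W := by positivity
  have h11 : 1 / W ≤ 1 := by rw [div_le_one hW0]; exact hW1
  intro i
  induction i with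
  | zero => intro v hv u hu c hc h; exact hE v hv u hu c hc h
  | succ i ih =>
    intro v hv u hu c hc h
    have h1 : W * ((1 / W) ^ (2 ^ i + 1)) ^ 2 ≤ hit cs u c v := by
      refine le_trans (le_of_eq ?_) h
      rw [← pow_mul, show (2 ^ i + 1) * 2 = (2 ^ (i + 1) + 1) + 1 by ring, pow_succ _ (2 ^ (i + 1) + 1)]
      field_simp
    have h2 : 2 * (N : ℚ) * (c + 1) ≤ W := by
      refine le_trans (mul_le_mul_of_nonneg_left ?_ (by positivity)) hW
      have : (c : ℚ) ≤ T := by exact_mod_cast hc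
      linarith
    obtain ⟨t, ht, w, hw, h3, h4⟩ := mid hcl hv (pow_pos h01 _) (pow_le_one₀ h01.le h11) h2 h1
    exact ⟨w, hw, ih v hv w hw t (ht.trans hc) h3, ih w hw u hu (c - t) (by omega) h4⟩

theorem hit_mul_le (u w : ℕ) : ∀ c c' v,
    hit cs w c v * hit cs u c' w ≤ hit cs u (c + c') v := by
  intro c
  induction c with
  | zero =>
    intro c' v
    rw [Nat.zero_add]
    by_cases h : v = w
    · rw [h, hit_self, one_mul]
    · have e : hit cs w 0 v = 0 := by
        show (if v = w then (1 : ℚ) else 0) = 0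
        rw [if_neg h]
      rw [e, zero_mul]
      exact hit_nonneg _ _ _
  | succ c ih =>
    intro c' v
    rw [show c + 1 + c' = (c + c') + 1 by ring]
    show (hit cs w c (cs v false) + hit cs w c (cs v true)) / 2 * hit cs u c' w ≤
      (hit cs u (c + c') (cs v false) + hit cs u (c + c') (cs v true)) / 2
    have h0 := ih c' (cs v false)
    have h1 := ih c' (cs v true)
    linarith

/-- Soundness. -/
theorem hit_of_rch {E : ℕ → ℕ → Prop} {q : ℚ} (hq : 0 ≤ q)
    (hE : ∀ v < N, ∀ u < N, E v u → ∃ c, q ≤ hit cs u c v) :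
    ∀ i, ∀ v < N, ∀ u < N, rch N E i v u → ∃ c, q ^ 2 ^ i ≤ hit cs u c v := by
  intro i
  induction i with
  | zero =>
    intro v hv u hu h
    rw [pow_zero, pow_one]
    exact hE v hv u hu h
  | succ i ih =>
    rintro v hv u hu ⟨w, hw, h1, h2⟩
    obtain ⟨c, hc⟩ := ih v hv w hw h1
    obtain ⟨c', hc'⟩ := ih w hw u hu h2
    refine ⟨c + c', le_trans ?_ (hit_mul_le u w c c' v)⟩
    rw [pow_succ 2 i, pow_mul, sq]
    exact mul_le_mul hc hc' (pow_nonneg hq _) (hit_nonneg _ _ _)

theorem hit_mono {u : ℕ} (hu : ∀ b, cs u b = u) : ∀ c c' v,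
    hit cs u c v ≤ hit cs u (c + c') v := by
  intro c c' v
  have h := hit_mul_le (cs := cs) u u c c' v
  rw [hit_fix u hu c', if_pos rfl, mul_one] at h
  exact h

end

end Vale.Agent.P313.SV
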