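import Vale.Agent.P313.R2.H284.Cond

/-!
Acceptance probabilities of chains: conditional composition, constants, small numbers.
-/

namespace Vale.Agent.P313.PT

open Finset CP Sel RI

/-- The acceptance probability of a chain. -/
def pr (Q : Chn) (x : List Bool) : ℚ := hit (Q.cs x) 0 (Q.T x) (Q.st x)

theorem pr_nonneg (Q : Chn) (x : List Bool) : 0 ≤ pr Q x := hit_nonneg _ _ _

theorem pr_le_one (Q : Chn) (x : List Bool) : pr Q x ≤ 1 := hit_le_one _ _ _

theorem val_pr (Q : Chn) (x : List Bool) : Val (Q.cs x) 0 (Q.st x) (Q.T x) (pr Q x) := by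
  intro J hJ
  obtain ⟨l, rfl⟩ := Nat.exists_eq_add_of_le hJ
  exact hit_stable (Q.halts x) 0 (RchJ.zero _) l

theorem pr_cond (Q0 Q1 Q2 : Chn) (x : List Bool) :
    pr (cond Q0 Q1 Q2) x = pr Q0 x * pr Q1 x + (1 - pr Q0 x) * pr Q2 x := by
  have n1 := Q1.two_le x
  have hab : ∀ u < 2, ∀ b : Bool, (cond Q0 Q1 Q2).cs x u b = u := fun u hu b =>
    Chn_fix (cond Q0 Q1 Q2) x u hu b
  have v1 : ∀ i v, v < Q1.N0 x → Abs (Q1.cs x) i v →
      Val ((cond Q0 Q1 Q2).cs x) 0 v i (hit (Q1.cs x) 0 i v) := by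
    intro i
    induction i with
    | zero => intro v hv h; exact Val.fix (hab v h.zero)
    | succ i ih =>
      intro v hv h
      have e : ∀ b, (cond Q0 Q1 Q2).cs x v b = Q1.cs x v b := by
        intro b
        show cδ _ _ _ _ _ _ _ v b.toNat = _
        unfold cδ
        rw [if_pos hv]; rfl
      exact Val.step (by rw [e]; exact ih _ (Q1.closed x le_rfl v hv false) (h.succ false))
        (by rw [e]; exact ih _ (Q1.closed x le_rfl v hv true) (h.succ true))
  have v2 : ∀ i v, v < Q2.N0 x → Abs (Q2.cs x) i v →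
      Val ((cond Q0 Q1 Q2).cs x) 0 (e2 (Q1.N0 x) v) i (hit (Q2.cs x) 0 i v) := by
    have base : ∀ i v, v < 2 → Val ((cond Q0 Q1 Q2).cs x) 0 (e2 (Q1.N0 x) v) i
        (hit (Q2.cs x) 0 i v) := by
      intro i v h0
      have e : e2 (Q1.N0 x) v = v := by unfold e2; rw [if_pos h0]
      rw [e, hit_fix 0 (fun b => Chn_fix Q2 x v h0 b)]
      exact (Val.fix (hab v h0)).mono (Nat.zero_le _)
    intro i
    induction i with
    | zero => intro v hv h; exact base 0 v h.zero
    | succ i ih =>
      intro v hv h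
      by_cases h0 : v < 2
      · exact base _ v h0
      · have e : ∀ b, (cond Q0 Q1 Q2).cs x (e2 (Q1.N0 x) v) b = e2 (Q1.N0 x) (Q2.cs x v b) := by
          intro b
          show cδ _ _ _ _ _ _ _ _ b.toNat = _
          have e1 : e2 (Q1.N0 x) v = Q1.N0 x + v := by unfold e2; rw [if_neg h0]
          rw [e1]
          unfold cδ
          rw [if_neg (by omega), if_pos (by omega), Nat.add_sub_cancel_left]; rfl
        exact Val.step (by rw [e]; exact ih _ (Q2.closed x le_rfl v hv false) (h.succ false))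
          (by rw [e]; exact ih _ (Q2.closed x le_rfl v hv true) (h.succ true))
  have w1 : Val ((cond Q0 Q1 Q2).cs x) 0 (Q1.st x) (Q1.T x + Q2.T x) (pr Q1 x) :=
    (v1 _ _ (Q1.st_lt x) (Chn_abs Q1 x le_rfl)).mono (by omega)
  have w2 : Val ((cond Q0 Q1 Q2).cs x) 0 (e2 (Q1.N0 x) (Q2.st x)) (Q1.T x + Q2.T x) (pr Q2 x) :=
    (v2 _ _ (Q2.st_lt x) (Chn_abs Q2 x le_rfl)).mono (by omega)
  have v0 : ∀ i v, v < Q0.N0 x → Abs (Q0.cs x) i v →
      Val ((cond Q0 Q1 Q2).cs x) 0 (e0 (Q1.N0 x) (Q2.N0 x) (Q1.st x) (Q2.st x) v)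
        (i + (Q1.T x + Q2.T x))
        (hit (Q0.cs x) 0 i v * pr Q1 x + (1 - hit (Q0.cs x) 0 i v) * pr Q2 x) := by
    have base : ∀ i v, v < 2 →
        Val ((cond Q0 Q1 Q2).cs x) 0 (e0 (Q1.N0 x) (Q2.N0 x) (Q1.st x) (Q2.st x) v)
        (i + (Q1.T x + Q2.T x))
        (hit (Q0.cs x) 0 i v * pr Q1 x + (1 - hit (Q0.cs x) 0 i v) * pr Q2 x) := by
      intro i v h0
      rw [hit_fix 0 (fun b => Chn_fix Q0 x v h0 b)]
      unfold e0
      rcases (show v = 0 ∨ v = 1 by omega) with rfl | rfl
      · rw [if_pos rfl, if_pos rfl]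
        have e : (1 : ℚ) * pr Q1 x + (1 - 1) * pr Q2 x = pr Q1 x := by ring
        rw [e]
        exact w1.mono (by omega)
      · rw [if_neg (by norm_num), if_pos rfl, if_neg (by norm_num)]
        have e : (0 : ℚ) * pr Q1 x + (1 - 0) * pr Q2 x = pr Q2 x := by ring
        rw [e]
        exact w2.mono (by omega)
    intro i
    induction i with
    | zero => intro v hv h; exact base 0 v h.zero
    | succ i ih =>
      intro v hv h
      by_cases h0 : v < 2
      · exact base _ v h0
      · have e : ∀ b, (cond Q0 Q1 Q2).cs x (e0 (Q1.N0 x) (Q2.N0 x) (Q1.st x) (Q2.st x) v) b =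
            e0 (Q1.N0 x) (Q2.N0 x) (Q1.st x) (Q2.st x) (Q0.cs x v b) := by
          intro b
          show cδ _ _ _ _ _ _ _ _ b.toNat = _
          have e1 : e0 (Q1.N0 x) (Q2.N0 x) (Q1.st x) (Q2.st x) v =
              Q1.N0 x + Q2.N0 x + v := by
            unfold e0; rw [if_neg (by omega), if_neg (by omega)]
          rw [e1]
          unfold cδ
          rw [if_neg (by omega), if_neg (by omega), Nat.add_sub_cancel_left]; rfl
        have f0 := ih _ (Q0.closed x le_rfl v hv false) (h.succ false)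
        have f1 := ih _ (Q0.closed x le_rfl v hv true) (h.succ true)
        rw [← e] at f0 f1
        have h2 := Val.step f0 f1
        have e3 : hit (Q0.cs x) 0 (i + 1) v =
            (hit (Q0.cs x) 0 i (Q0.cs x v false) + hit (Q0.cs x) 0 i (Q0.cs x v true)) / 2 := rfl
        intro J hJ
        rw [h2 J (by omega), e3]
        ring
  exact v0 _ _ (Q0.st_lt x) (Chn_abs Q0 x le_rfl) _ le_rfl

/-! ### Constants -/

/-- The chain in the state `c`, where `c` is `0` or `1`. -/
def cst (c : ℕ) (hc : c < 2) : Chn where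
  N0 _ := 2
  T _ := 1
  st _ := c
  δ _ v _ := v
  lfN := P313.LF.const 2
  lfT := P313.LF.const 1
  lfst := P313.LF.const c
  lfδ := fun hv _ => hv
  two_le _ := le_rfl
  T_pos _ := Nat.one_pos
  st_lt _ := hc
  or_lt _ _ _ := Or.inl rfl
  halts _ := halts_of_abs (fun _ _ _ => rfl) (Abs.fix hc (fun _ => rfl) 1)

theorem pr_cst (c : ℕ) (hc : c < 2) (x : List Bool) : pr (cst c hc) x = if c = 0 then 1 else 0 :=
  hit_fix 0 (fun _ => rfl) 1

/-- The chain which accepts with probability `2 ^ (- (m x + 1))`. -/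
def tinyδ (m : ℕ) (v b : ℕ) : ℕ :=
  if v < 2 then v else if m + 2 < v then v else
    if b = 0 then 1 else if v < m + 2 then v + 1 else 0

theorem tiny_step {m v : ℕ} (h1 : 2 ≤ v) (h2 : v ≤ m + 2) :
    tinyδ m v (false).toNat = 1 ∧ tinyδ m v (true).toNat = if v < m + 2 then v + 1 else 0 := by
  constructor
  · unfold tinyδ
    rw [if_neg (by omega), if_neg (by omega)]; rfl
  · unfold tinyδ
    rw [if_neg (by omega), if_neg (by omega), if_neg (by decide)]

theorem tiny_fix {m v : ℕ} (h : v < 2) (b : ℕ) : tinyδ m v b = v := by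
  unfold tinyδ
  rw [if_pos h]

theorem tiny_abs {m : ℕ} : ∀ j, j ≤ m →
    Abs (fun v (b : Bool) => tinyδ m v b.toNat) (j + 1) (m + 2 - j) := by
  intro j
  induction j with
  | zero =>
    intro _
    obtain ⟨h1, h2⟩ := tiny_step (m := m) (v := m + 2 - 0) (by omega) (by omega)
    refine Abs.of_step (fun b => ?_)
    cases b
    · show Abs _ 0 (tinyδ m (m + 2 - 0) (false).toNat)
      rw [h1]
      exact Abs.fix (by norm_num) (fun b => tiny_fix (by norm_num) _) 0
    · show Abs _ 0 (tinyδ m (m + 2 - 0) (true).toNat)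
      rw [h2, if_neg (by omega)]
      exact Abs.fix (by norm_num) (fun b => tiny_fix (by norm_num) _) 0
  | succ j ih =>
    intro hj
    obtain ⟨h1, h2⟩ := tiny_step (m := m) (v := m + 2 - (j + 1)) (by omega) (by omega)
    refine Abs.of_step (fun b => ?_)
    cases b
    · show Abs _ (j + 1) (tinyδ m (m + 2 - (j + 1)) (false).toNat)
      rw [h1]
      exact Abs.fix (by norm_num) (fun b => tiny_fix (by norm_num) _) _
    · show Abs _ (j + 1) (tinyδ m (m + 2 - (j + 1)) (true).toNat)
      rw [h2, if_pos (by omega)]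
      have e : m + 2 - (j + 1) + 1 = m + 2 - j := by omega
      rw [e]
      exact ih (by omega)

theorem tiny_hit {m : ℕ} : ∀ j, j ≤ m →
    hit (fun v (b : Bool) => tinyδ m v b.toNat) 0 (j + 1) (m + 2 - j) = 1 / 2 ^ (j + 1) := by
  intro j
  induction j with
  | zero =>
    intro _
    obtain ⟨h1, h2⟩ := tiny_step (m := m) (v := m + 2 - 0) (by omega) (by omega)
    show (hit _ 0 0 (tinyδ m (m + 2 - 0) (false).toNat) +
      hit _ 0 0 (tinyδ m (m + 2 - 0) (true).toNat)) / 2 = _
    rw [h1, h2, if_neg (by omega)]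
    norm_num [hit]
  | succ j ih =>
    intro hj
    obtain ⟨h1, h2⟩ := tiny_step (m := m) (v := m + 2 - (j + 1)) (by omega) (by omega)
    show (hit _ 0 (j + 1) (tinyδ m (m + 2 - (j + 1)) (false).toNat) +
      hit _ 0 (j + 1) (tinyδ m (m + 2 - (j + 1)) (true).toNat)) / 2 = _
    have e : m + 2 - (j + 1) + 1 = m + 2 - j := by omega
    rw [h1, h2, if_pos (by omega), e, ih (by omega),
      hit_fix 0 (fun b => tiny_fix (by norm_num) _), if_neg (by norm_num), pow_succ 2 (j + 1)]
    rw [zero_add, div_div]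

/-- The chain which accepts with probability `2 ^ (- (m x + 1))`. -/
def tiny (m : List Bool → ℕ) (hm : LFx m) : Chn where
  N0 x := m x + 3
  T x := m x + 1
  st _ := 2
  δ x v b := tinyδ (m x) v b
  lfN := P313.LF.add hm (P313.LF.const 3)
  lfT := P313.LF.add hm (P313.LF.const 1)
  lfst := P313.LF.const 2
  lfδ := fun {k v b} hv hb => by
    have h := hm.lf k
    have h2 := h.add (P313.LF.const 2)
    have h1 := P313.LF.ite (P313.LFP.lt hv (P313.LF.const 2)) hv
      (P313.LF.ite (P313.LFP.lt h2 hv) hv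
        (P313.LF.ite (P313.LFP.lt hb (P313.LF.const 1)) (P313.LF.const 1)
          (P313.LF.ite (P313.LFP.lt hv h2) (hv.add (P313.LF.const 1)) (P313.LF.const 0))))
    refine h1.congr (fun x c => ?_)
    unfold tinyδ
    split_ifs <;> first | rfl | omega
  two_le x := by omega
  T_pos x := by omega
  st_lt x := by omega
  or_lt x v b := by
    unfold tinyδ
    split_ifs <;> omega
  halts x := halts_of_abs (fun u hu b => tiny_fix hu _) (by
    have := tiny_abs (m := m x) (m x) le_rfl
    rwa [show m x + 2 - m x = 2 by omega] at this)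

theorem pr_tiny (m : List Bool → ℕ) (hm : LFx m) (x : List Bool) :
    pr (tiny m hm) x = 1 / 2 ^ (m x + 1) := by
  have := tiny_hit (m := m x) (m x) le_rfl
  rw [show m x + 2 - m x = 2 by omega] at this
  exact this

end Vale.Agent.P313.PT
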