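import Vale.Agent.P313.R2.H284.Prob

/-!
Polynomials in acceptance probabilities, and their zero tests.
-/

namespace Vale.Agent.P313.PT

open Finset CP Sel RI

/-- Acceptance probabilities of logspace computable chains. -/
def IsPr (p : List Bool → ℚ) : Prop := ∃ Q : Chn, ∀ x, pr Q x = p x

theorem IsPr.zero : IsPr (fun _ => 0) :=
  ⟨cst 1 (by norm_num), fun x => by rw [pr_cst, if_neg (by norm_num)]⟩

theorem IsPr.one : IsPr (fun _ => 1) :=
  ⟨cst 0 (by norm_num), fun x => by rw [pr_cst, if_pos rfl]⟩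

theorem IsPr.mul {p q : List Bool → ℚ} (hp : IsPr p) (hq : IsPr q) :
    IsPr (fun x => p x * q x) := by
  obtain ⟨Q, hQ⟩ := hp
  obtain ⟨R, hR⟩ := hq
  refine ⟨cond Q R (cst 1 (by norm_num)), fun x => ?_⟩
  rw [pr_cond, pr_cst, if_neg (by norm_num), hQ, hR]
  ring

theorem IsPr.avg {p q : List Bool → ℚ} (hp : IsPr p) (hq : IsPr q) :
    IsPr (fun x => (p x + q x) / 2) := by
  obtain ⟨Q, hQ⟩ := hp
  obtain ⟨R, hR⟩ := hq
  have h0 : LFx (fun _ => 0) := P313.LF.const 0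
  refine ⟨cond (PT.tiny (fun _ => 0) h0) Q R, fun x => ?_⟩
  have h1 := pr_tiny (fun _ => 0) h0 x
  rw [pr_cond, h1, hQ, hR]
  ring

theorem IsPr.tiny {m : List Bool → ℕ} (hm : LFx m) : IsPr (fun x => 1 / 2 ^ (m x + 1)) :=
  ⟨PT.tiny m hm, fun x => pr_tiny m hm x⟩

theorem IsPr.div_pow {p : List Bool → ℚ} (hp : IsPr p) (s : ℕ) :
    IsPr (fun x => p x / 2 ^ s) := by
  induction s with
  | zero =>
    obtain ⟨Q, hQ⟩ := hp
    refine ⟨Q, fun x => ?_⟩
    show _ = p x / 2 ^ 0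
    rw [hQ, pow_zero, div_one]
  | succ s ih =>
    obtain ⟨Q, hQ⟩ := ih.avg IsPr.zero
    refine ⟨Q, fun x => (hQ x).trans ?_⟩
    show (p x / 2 ^ s + 0) / 2 = p x / 2 ^ (s + 1)
    rw [add_zero, div_div, pow_succ]

theorem IsPr.machine (M : RTM) (c : ℕ)
    (hM : M.Bounded (fun n => (n + 2) ^ c) (fun n => c * Nat.log 2 (n + 2))) :
    IsPr (fun x => M.probAt x true ((x.length + 2) ^ c) 0 M.init) :=
  ⟨ofM M c hM, fun x => ofM_hit M c hM x le_rfl⟩

/-! ### Differences -/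

/-- `f` is a power of two times a difference of two acceptance probabilities. -/
def Rep (f : List Bool → ℚ) : Prop :=
  ∃ (s : ℕ) (A B : List Bool → ℚ), IsPr A ∧ IsPr B ∧ ∀ x, f x = 2 ^ s * (A x - B x)

theorem Rep.of {p : List Bool → ℚ} (hp : IsPr p) : Rep p :=
  ⟨0, p, fun _ => 0, hp, IsPr.zero, fun x => by rw [pow_zero, one_mul, sub_zero]⟩

theorem Rep.neg {f : List Bool → ℚ} (hf : Rep f) : Rep (-f) := by
  obtain ⟨s, A, B, hA, hB, h⟩ := hf
  refine ⟨s, B, A, hB, hA, fun x => ?_⟩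
  rw [Pi.neg_apply, h]
  ring

theorem Rep.add {f g : List Bool → ℚ} (hf : Rep f) (hg : Rep g) : Rep (f + g) := by
  obtain ⟨s, A, B, hA, hB, h⟩ := hf
  obtain ⟨t, C, D, hC, hD, k⟩ := hg
  refine ⟨s + t + 1, _, _, (hA.div_pow t).avg (hC.div_pow s), (hB.div_pow t).avg (hD.div_pow s),
    fun x => ?_⟩
  rw [Pi.add_apply, h, k]
  have e1 : (2 : ℚ) ^ s ≠ 0 := by positivity
  have e2 : (2 : ℚ) ^ t ≠ 0 := by positivity
  rw [pow_succ, pow_add]
  field_simp
  ring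

theorem Rep.mul {f g : List Bool → ℚ} (hf : Rep f) (hg : Rep g) : Rep (f * g) := by
  obtain ⟨s, A, B, hA, hB, h⟩ := hf
  obtain ⟨t, C, D, hC, hD, k⟩ := hg
  refine ⟨s + t + 1, _, _, (hA.mul hC).avg (hB.mul hD), (hA.mul hD).avg (hB.mul hC), fun x => ?_⟩
  rw [Pi.mul_apply, h, k, pow_succ, pow_add]
  ring

/-- The ring of these functions. -/
def repRing : Subring (List Bool → ℚ) where
  carrier := {f | Rep f}
  mul_mem' := Rep.mul
  one_mem' := Rep.of IsPr.one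
  add_mem' := Rep.add
  zero_mem' := Rep.of IsPr.zero
  neg_mem' := Rep.neg

theorem rep_aeval {ι : Type} {p : ι → List Bool → ℚ} (hp : ∀ i, IsPr (p i))
    (P : MvPolynomial ι ℤ) : Rep (fun x => MvPolynomial.aeval (fun i => p i x) P) := by
  induction P using MvPolynomial.induction_on with
  | C a =>
    have h : ((a : ℤ) : List Bool → ℚ) ∈ repRing := intCast_mem repRing a
    have e : (fun x => MvPolynomial.aeval (fun i => p i x) (MvPolynomial.C a : MvPolynomial ι ℤ)) =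
        ((a : ℤ) : List Bool → ℚ) := by
      funext x
      simp
    rw [e]
    exact h
  | add P R h1 h2 =>
    have h := Rep.add h1 h2
    have e : (fun x => MvPolynomial.aeval (fun i => p i x) (P + R)) =
        (fun x => MvPolynomial.aeval (fun i => p i x) P) +
          (fun x => MvPolynomial.aeval (fun i => p i x) R) := by
      funext x
      simp
    rw [e]
    exact h
  | mul_X P i h1 =>
    have h := Rep.mul h1 (Rep.of (hp i))
    have e : (fun x => MvPolynomial.aeval (fun i => p i x) (P * MvPolynomial.X i)) =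
        (fun x => MvPolynomial.aeval (fun i => p i x) P) * (p i) := by
      funext x
      simp
    rw [e]
    exact h

/-! ### The comparison of two chains -/

/-- The comparison is right when the probabilities are not too close. -/
theorem sep_chains {κ : List Bool → ℕ} (Q1 Q2 : Chn) (e : ℕ) (T : List Bool → ℕ) (hT : LFx T)
    (hT1 : ∀ x, 0 < T x) (h1 : ∀ x, Q1.T x ≤ T x) (h2 : ∀ x, Q2.T x ≤ T x) (x : List Bool) :
    (pr Q2 x + 1 / ((x.length : ℚ) + 2) ^ (e * κ x) ≤ pr Q1 x →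
      numD (uni Q1 Q2 T hT hT1) e κ x (Q1.N0 x + Q2.st x) (Q1.N0 x + 0) ≤
      numD (uni Q1 Q2 T hT hT1) e κ x (Q1.st x) 0) ∧
    (pr Q1 x + 1 / ((x.length : ℚ) + 2) ^ (e * κ x) ≤ pr Q2 x →
      ¬ numD (uni Q1 Q2 T hT hT1) e κ x (Q1.N0 x + Q2.st x) (Q1.N0 x + 0) ≤
      numD (uni Q1 Q2 T hT hT1) e κ x (Q1.st x) 0) := by
  have e1 : hit (Q1.cs x) 0 (T x) (Q1.st x) = pr Q1 x := val_pr Q1 x _ (h1 x)
  have e2 : hit (Q2.cs x) 0 (T x) (Q2.st x) = pr Q2 x := val_pr Q2 x _ (h2 x)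
  have n1 := Q1.two_le x
  have n2 := Q2.two_le x
  have m1 := Q1.st_lt x
  have m2 := Q2.st_lt x
  have hN : (uni Q1 Q2 T hT hT1).N0 x = Q1.N0 x + Q2.N0 x := rfl
  have h3 := num_sep (uni Q1 Q2 T hT hT1) e κ x
    (s1 := Q1.st x) (u1 := 0) (s2 := Q1.N0 x + Q2.st x) (u2 := Q1.N0 x + 0)
    (by rw [hN]; omega) (by rw [hN]; omega) (by rw [hN]; omega) (by rw [hN]; omega)
  rw [← e1, ← e2, ← hit_uni1 (Q2 := Q2) (hT := hT) (hT1 := hT1) x (T x) _ m1,
    ← hit_uni2 (Q1 := Q1) (hT := hT) (hT1 := hT1) x (T x) _ m2]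
  exact h3

/-- Comparison of two chains up to `n ^ (- e κ)`. -/
theorem dtisp_chains {κ : ℕ → ℕ} (hκ : LFx (fun x => κ x.length)) (hκ1 : ∀ n, 1 ≤ κ n)
    (Q1 Q2 : Chn) (e : ℕ) :
    ∃ A : Set (List Bool), DTISP (fun n => (n + 2) ^ κ n)
      (fun n => Nat.log 2 (n + 2) ^ 2 / (κ n * (Nat.log 2 (κ n) + 1)) +
        κ n * Nat.log 2 (n + 2)) A ∧
      ∀ x : List Bool,
        (pr Q2 x + 1 / ((x.length : ℚ) + 2) ^ (e * κ x.length) ≤ pr Q1 x → x ∈ A) ∧
        (pr Q1 x + 1 / ((x.length : ℚ) + 2) ^ (e * κ x.length) ≤ pr Q2 x → x ∉ A) := by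
  have hT : LFx (fun x => Q1.T x + Q2.T x) := lfx_add Q1.lfT Q2.lfT
  have hT1 : ∀ x : List Bool, 0 < Q1.T x + Q2.T x := fun x => by
    have := Q1.T_pos x; omega
  obtain ⟨B, hB⟩ := bd_poly (uni Q1 Q2 _ hT hT1) e hκ1
  exact ⟨_, dtisp_uni Q1 Q2 hT hT1 e hκ hκ1 B hB,
    fun x => sep_chains (κ := fun x => κ x.length) Q1 Q2 e _ hT hT1
      (fun x => Nat.le_add_right _ _) (fun x => Nat.le_add_left _ _) x⟩

end Vale.Agent.P313.PT
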