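import Vale.Agent.P313.R2.H284.Mid

/-!
Reachability by `2 ^ i` edges as a recursion for the stack machine.
-/

namespace Vale.Agent.P313.SV

open Finset

/-- The recursion for reachability by `2 ^ i` edges. The argument `v + N * u` stands for the
pair of states `v` and `u`. -/
def sav (N : ℕ) (E : ℕ → ℕ → ℕ) : RecD where
  base a := E (a % N) (a / N)
  s0 _ _ := 0
  qry _ a q _ := if q % 2 = 0 then a % N + N * (q / 2) else q / 2 + N * (a / N)
  upd _ _ q s r := if s = 2 then 2 else if q % 2 = 0 then (if r = 0 then 0 else 1)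
    else (if s = 1 then (if r = 0 then 0 else 2) else 0)
  out _ _ s := if s = 2 then 1 else 0

section

variable {N : ℕ} {E : ℕ → ℕ → ℕ}

theorem sav_st (Qn i a : ℕ) : ∀ w, (sav N E).st Qn i a (2 * w) =
    if ∃ w' < w, (sav N E).val Qn i (a % N + N * w') ≠ 0 ∧
      (sav N E).val Qn i (w' + N * (a / N)) ≠ 0 then 2 else 0 := by
  intro w
  induction w with
  | zero =>
    rw [if_neg (by rintro ⟨w', h, _⟩; omega)]
    rfl
  | succ w ih =>
    have e1 : (sav N E).st Qn i a (2 * (w + 1)) = (sav N E).upd i a (2 * w + 1)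
        ((sav N E).upd i a (2 * w) ((sav N E).st Qn i a (2 * w))
          ((sav N E).val Qn i ((sav N E).qry i a (2 * w) ((sav N E).st Qn i a (2 * w)))))
        ((sav N E).val Qn i ((sav N E).qry i a (2 * w + 1) ((sav N E).st Qn i a (2 * w + 1)))) :=
      rfl
    have q0 : ∀ s, (sav N E).qry i a (2 * w) s = a % N + N * w := by
      intro s
      show (if 2 * w % 2 = 0 then a % N + N * (2 * w / 2) else 2 * w / 2 + N * (a / N)) = _
      rw [if_pos (by omega), show 2 * w / 2 = w by omega]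
    have q1 : ∀ s, (sav N E).qry i a (2 * w + 1) s = w + N * (a / N) := by
      intro s
      show (if (2 * w + 1) % 2 = 0 then a % N + N * ((2 * w + 1) / 2) else
        (2 * w + 1) / 2 + N * (a / N)) = _
      rw [if_neg (by omega), show (2 * w + 1) / 2 = w by omega]
    rw [e1, q0, q1, ih]
    have u0 : ∀ s r, (sav N E).upd i a (2 * w) s r =
        if s = 2 then 2 else (if r = 0 then 0 else 1) := by
      intro s r
      show (if s = 2 then 2 else if 2 * w % 2 = 0 then (if r = 0 then 0 else 1)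
        else (if s = 1 then (if r = 0 then 0 else 2) else 0)) = _
      rw [if_pos (show 2 * w % 2 = 0 by omega)]
    have u1 : ∀ s r, (sav N E).upd i a (2 * w + 1) s r =
        if s = 2 then 2 else (if s = 1 then (if r = 0 then 0 else 2) else 0) := by
      intro s r
      show (if s = 2 then 2 else if (2 * w + 1) % 2 = 0 then (if r = 0 then 0 else 1)
        else (if s = 1 then (if r = 0 then 0 else 2) else 0)) = _
      rw [if_neg (show ¬ (2 * w + 1) % 2 = 0 by omega)]
    rw [u0, u1]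
    by_cases h : ∃ w' < w, (sav N E).val Qn i (a % N + N * w') ≠ 0 ∧
      (sav N E).val Qn i (w' + N * (a / N)) ≠ 0
    · obtain ⟨w', hw', h1⟩ := h
      have hh : ∃ w' < w, (sav N E).val Qn i (a % N + N * w') ≠ 0 ∧
        (sav N E).val Qn i (w' + N * (a / N)) ≠ 0 := ⟨w', hw', h1⟩
      have hh2 : ∃ w' < w + 1, (sav N E).val Qn i (a % N + N * w') ≠ 0 ∧
        (sav N E).val Qn i (w' + N * (a / N)) ≠ 0 := ⟨w', by omega, h1⟩
      rw [if_pos hh, if_pos hh2]
      simp
    · rw [if_neg h]
      by_cases h1 : (sav N E).val Qn i (a % N + N * w) = 0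
      · rw [if_neg (show ¬ ∃ w' < w + 1, _ from ?_), if_pos h1]
        · simp
        · rintro ⟨w', hw', h2, h3⟩
          rcases Nat.lt_succ_iff_lt_or_eq.1 hw' with h4 | rfl
          · exact h ⟨w', h4, h2, h3⟩
          · exact h2 h1
      · by_cases h2 : (sav N E).val Qn i (w + N * (a / N)) = 0
        · rw [if_neg (show ¬ ∃ w' < w + 1, _ from ?_), if_neg h1, if_pos h2]
          · simp
          · rintro ⟨w', hw', h3, h4⟩
            rcases Nat.lt_succ_iff_lt_or_eq.1 hw' with h5 | rfl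
            · exact h ⟨w', h5, h3, h4⟩
            · exact h4 h2
        · have hh2 : ∃ w' < w + 1, (sav N E).val Qn i (a % N + N * w') ≠ 0 ∧
            (sav N E).val Qn i (w' + N * (a / N)) ≠ 0 := ⟨w, by omega, h1, h2⟩
          rw [if_pos hh2, if_neg h1, if_neg h2]
          simp

theorem sav_val_succ (i a : ℕ) : (sav N E).val (2 * N) (i + 1) a ≠ 0 ↔
    ∃ w < N, (sav N E).val (2 * N) i (a % N + N * w) ≠ 0 ∧
      (sav N E).val (2 * N) i (w + N * (a / N)) ≠ 0 := by
  have e : (sav N E).val (2 * N) (i + 1) a =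
      if (sav N E).st (2 * N) i a (2 * N) = 2 then 1 else 0 := rfl
  rw [e, sav_st]
  by_cases h : ∃ w' < N, (sav N E).val (2 * N) i (a % N + N * w') ≠ 0 ∧
      (sav N E).val (2 * N) i (w' + N * (a / N)) ≠ 0
  · rw [if_pos h]
    simp only [if_true]
    exact ⟨fun _ => h, fun _ => one_ne_zero⟩
  · rw [if_neg h]
    simp only [OfNat.zero_ne_ofNat, if_false]
    exact ⟨fun h1 => absurd rfl h1, fun h1 => absurd h1 h⟩

/-- The recursion computes reachability. -/
theorem sav_val : ∀ i v, v < N → ∀ u, (sav N E).val (2 * N) i (v + N * u) ≠ 0 ↔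
    rch N (fun v u => E v u ≠ 0) i v u := by
  intro i
  induction i with
  | zero =>
    intro v hv u
    show E ((v + N * u) % N) ((v + N * u) / N) ≠ 0 ↔ E v u ≠ 0
    rw [RecD.dig_mod hv, RecD.dig_div hv]
  | succ i ih =>
    intro v hv u
    rw [sav_val_succ, RecD.dig_mod hv, RecD.dig_div hv]
    constructor
    · rintro ⟨w, hw, h1, h2⟩
      exact ⟨w, hw, (ih v hv w).1 h1, (ih w hw u).1 h2⟩
    · rintro ⟨w, hw, h1, h2⟩
      exact ⟨w, hw, (ih v hv w).2 h1, (ih w hw u).2 h2⟩

theorem sav_le (hE : ∀ v u, E v u ≤ 1) (Qn i a : ℕ) : (sav N E).val Qn i a ≤ 1 := by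
  cases i with
  | zero => exact hE _ _
  | succ i =>
    show (if _ = 2 then 1 else 0) ≤ 1
    split_ifs <;> omega

theorem sav_st_le (Qn i a : ℕ) : ∀ q, (sav N E).st Qn i a q ≤ 2 := by
  intro q
  cases q with
  | zero => exact Nat.zero_le _
  | succ q =>
    have e : (sav N E).st Qn i a (q + 1) = (if (sav N E).st Qn i a q = 2 then 2 else
        if q % 2 = 0 then
          (if (sav N E).val Qn i ((sav N E).qry i a q ((sav N E).st Qn i a q)) = 0 then 0 else 1)
        else (if (sav N E).st Qn i a q = 1 then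
          (if (sav N E).val Qn i ((sav N E).qry i a q ((sav N E).st Qn i a q)) = 0 then 0 else 2)
          else 0)) := rfl
    rw [e]
    split_ifs <;> omega

theorem sav_ok (hN : 0 < N) (hE : ∀ v u, E v u ≤ 1) {P top : ℕ} (hP : 2 < P) (hP1 : top < P)
    (hP2 : 2 * N < P) (hP3 : N * N ≤ P) :
    RecD.Ok (sav N E) P (2 * N) top (fun a => a < N * N) where
  htwo := by omega
  htop := hP1
  hqn := hP2
  hqn1 := by omega
  harg a ha := lt_of_lt_of_le ha hP3
  hval i _ a _ := lt_of_le_of_lt (sav_le hE _ i a) (by omega)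
  hst i _ a _ q _ := lt_of_le_of_lt (sav_st_le _ i a q) hP
  hqry i _ a ha q hq := by
    have h1 : q / 2 < N := by omega
    have h2 : a / N < N := Nat.div_lt_of_lt_mul ha
    have h3 := Nat.mod_lt a hN
    have h4 : N * (q / 2 + 1) ≤ N * N := Nat.mul_le_mul_left _ h1
    have h5 : N * (a / N + 1) ≤ N * N := Nat.mul_le_mul_left _ h2
    show (if q % 2 = 0 then a % N + N * (q / 2) else q / 2 + N * (a / N)) < N * N
    rw [mul_add] at h4 h5
    split_ifs <;> omega

end

/-- The stack machine for reachability, with budget `M`. -/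
def savC (N : ℕ) (E : ℕ → ℕ → ℕ) (P M top a : ℕ) : ℕ :=
  ((sav N E).stM P (2 * N) top M)^[M] (RecD.cf P 0 top a 0) / P / P % P

theorem savC_ne {N : ℕ} {E : ℕ → ℕ → ℕ} (hN : 0 < N) (hE : ∀ v u, E v u ≤ 1) {P M top v u : ℕ}
    (hP : 2 < P) (hP1 : top < P) (hP2 : 2 * N + 2 ≤ P) (hP3 : N * N ≤ P)
    (hM : P ^ (3 * top + 3) ≤ M) (hv : v < N) (hu : u < N) :
    savC N E P M top (v + N * u) ≠ 0 ↔ rch N (fun v u => E v u ≠ 0) top v u := by
  have ha : v + N * u < N * N := by
    have h1 : N * (u + 1) ≤ N * N := Nat.mul_le_mul_left _ hu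
    rw [mul_add] at h1
    omega
  have h1 : RecD.tt (2 * N) top ≤ M := by
    have h2 := RecD.tt_le (2 * N) top
    refine le_trans ?_ hM
    calc RecD.tt (2 * N) top ≤ 2 * (2 * N + 2) ^ top := by omega
      _ ≤ P * P ^ top := Nat.mul_le_mul (by omega) (Nat.pow_le_pow_left hP2 _)
      _ = P ^ (top + 1) := by rw [pow_succ']
      _ ≤ _ := Nat.pow_le_pow_right (by omega) (by omega)
  unfold savC
  rw [RecD.run_top (sav_ok hN hE hP hP1 (by omega) hP3) hM h1 ha]
  exact sav_val top v hv u

end Vale.Agent.P313.SV
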