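import Vale.Agent.P313.R2.H284.SavM

/-!
Time and space of the machine for reachability, and its correctness.
-/

namespace Vale.Agent.P313.SV

open Finset RI CP Sel

theorem budS_le (Q : Chm) (e : ℕ) {κ : List Bool → ℕ} (hκ : LFx κ) :
    ∃ A, ∀ x, 1 ≤ κ x → x.length + bdS Q e κ x + 2 ≤ 2 ^ (A * (κ x * Ln x)) := by
  obtain ⟨C1, hC1, hC⟩ := CH.sh_le (Q := dum Q e)
  obtain ⟨d, hd⟩ := CH.log_of_pb hκ
  obtain ⟨A1, hA1⟩ : ∃ A1, A1 = 414722 * C1 + d + 2 := ⟨_, rfl⟩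
  refine ⟨81 * A1 + 1, fun x hκ1 => ?_⟩
  have h0 := CH.pl_ge (Q := dum Q e) (κ := κ) (lam := lamD Q e) (e := 5) x
  have h1 := CH.pk_pos (Q := dum Q e) (κ := κ) (lam := lamD Q e) (e := 5) x
  have h2 := CH.pow_ok (Q := dum Q e) (κ := κ) (lam := lamD Q e) (e := 5) (by norm_num) x
  have h3 := CH.N_ok (Q := dum Q e) (κ := κ) (lam := lamD Q e) (e := 5) x
  have h4 : (prD Q e κ x).XP ≤ 2 ^ (810 * (CH.pl (dum Q e) 5 κ (lamD Q e) x *
      CH.pk (dum Q e) 5 κ (lamD Q e) x)) := G.prm_XP_le h0 h1 h2 h3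
  have h5 := CH.lk_le (Q := dum Q e) (κ := κ) (lam := lamD Q e) (e := 5) (by norm_num) x
  have h6 := CH.five_le_h (Q := dum Q e) x
  have h7 := CH.N_lt (Q := dum Q e) x
  have h8 := Nc_le (Q := Q) (e := e) x
  have hn := CH.n_lt (Q := dum Q e) x
  have hL := Ln_pos x
  have hCx := hC x
  have hdx := hd x
  have hsk : CH.sk (dum Q e) 5 κ x ≤ κ x := CH.sk_le hκ1
  generalize hX : CH.pl (dum Q e) 5 κ (lamD Q e) x * CH.pk (dum Q e) 5 κ (lamD Q e) x = X at *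
  have hks : ksD Q e κ x ≤ κ x := hsk
  have hB : (prD Q e κ x).XP * (2 * ((Q.T x + 1) * Q.N0 x)) ≤
      2 ^ (414722 * CH.sh (dum Q e) x) := by
    generalize CH.sh (dum Q e) x = h at *
    generalize (prD Q e κ x).XP = W at *
    calc W * (2 * ((Q.T x + 1) * Q.N0 x)) ≤ 2 ^ (810 * X) * (2 * 2 ^ h) :=
          Nat.mul_le_mul h4 (Nat.mul_le_mul_left _ (h8.trans h7.le))
      _ = 2 ^ (810 * X + (h + 1)) := by rw [pow_add, pow_succ 2 h]; ring
      _ ≤ 2 ^ (414722 * h) := by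
          apply Nat.pow_le_pow_right (by norm_num)
          norm_num at h5
          omega
  have hbs : bsD Q e κ x ≤ 2 ^ (A1 * Ln x) := by
    have h9 : κ x + 2 ≤ 2 ^ (d * Ln x + 2) := by
      have h10 : κ x < 2 ^ (Nat.log 2 (κ x) + 1) := Nat.lt_pow_succ_log_self (by norm_num) _
      have h11 : 2 ^ (Nat.log 2 (κ x) + 1) ≤ 2 ^ (d * Ln x + 1) :=
        Nat.pow_le_pow_right (by norm_num) (by omega)
      have h12 : 1 ≤ 2 ^ (d * Ln x) := Nat.one_le_two_pow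
      have h13 : 2 ^ (d * Ln x + 1) = 2 ^ (d * Ln x) * 2 := pow_succ _ _
      have h14 : 2 ^ (d * Ln x + 2) = 2 ^ (d * Ln x) * 4 := by rw [pow_add]; norm_num
      rw [h14]
      rw [h13] at h11
      omega
    calc bsD Q e κ x ≤ 2 ^ (414722 * CH.sh (dum Q e) x) * 2 ^ (d * Ln x + 2) :=
          Nat.mul_le_mul hB h9
      _ = 2 ^ (414722 * CH.sh (dum Q e) x + (d * Ln x + 2)) := by rw [← pow_add]
      _ ≤ 2 ^ (A1 * Ln x) := by
        apply Nat.pow_le_pow_right (by norm_num)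
        rw [hA1]
        have e1 : 414722 * CH.sh (dum Q e) x ≤ 414722 * (C1 * Ln x) :=
          Nat.mul_le_mul_left _ hCx
        have e2 : (414722 * C1 + d + 2) * Ln x =
          414722 * (C1 * Ln x) + d * Ln x + 2 * Ln x := by ring
        rw [e2]
        omega
  have hE : 60 * ksD Q e κ x + 15 + (3 * κ x + 3) ≤ 81 * κ x := by omega
  have h9 : bdS Q e κ x ≤ 2 ^ (81 * A1 * (κ x * Ln x)) := by
    unfold bdS
    calc _ ≤ (2 ^ (A1 * Ln x)) ^ (60 * ksD Q e κ x + 15 + (3 * κ x + 3)) :=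
          Nat.pow_le_pow_left hbs _
      _ = 2 ^ (A1 * Ln x * (60 * ksD Q e κ x + 15 + (3 * κ x + 3))) := by
          rw [← pow_mul]
      _ ≤ 2 ^ (A1 * Ln x * (81 * κ x)) :=
          Nat.pow_le_pow_right (by norm_num) (Nat.mul_le_mul_left _ hE)
      _ = _ := by
          congr 1
          ring
  have h10 : C1 * Ln x ≤ 81 * A1 * (κ x * Ln x) :=
    Nat.mul_le_mul (by omega) (Nat.le_mul_of_pos_left _ hκ1)
  have h11 : x.length + 2 ≤ 2 ^ (81 * A1 * (κ x * Ln x)) :=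
    hn.le.trans (Nat.pow_le_pow_right (by norm_num) (hCx.trans h10))
  have h12 : 1 ≤ κ x * Ln x := Nat.mul_pos hκ1 hL
  have h13 : (81 * A1 + 1) * (κ x * Ln x) = 81 * A1 * (κ x * Ln x) + κ x * Ln x := by ring
  calc _ ≤ 2 ^ (81 * A1 * (κ x * Ln x)) + 2 ^ (81 * A1 * (κ x * Ln x)) := by omega
    _ = 2 ^ (81 * A1 * (κ x * Ln x) + 1) := by rw [pow_succ]; ring
    _ ≤ _ := Nat.pow_le_pow_right (by norm_num) (by omega)

/-- The machine, with bounds in terms of the length of the input. -/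
theorem dec7 (Q : Chm) (e : ℕ) {κ s u : List Bool → ℕ} (hκ : LFx κ)
    (hs : LFx s) (hu : LFx u) (hsN : ∀ x, s x < Q.N0 x) (huN : ∀ x, u x < Q.N0 x)
    (hκ1 : ∀ x, 1 ≤ κ x) :
    ∃ (D : RTM) (C : ℕ), D.Deterministic ∧ ∀ (x : List Bool) (ω : ℕ → Bool),
      (∀ T, 2 ^ (C * (κ x * Ln x)) ≤ T → ∀ w : Bool,
        (w = true ↔ acS Q e κ s u x) → D.verdict (D.run x ω T).state = some w) ∧
      ∀ t i, ((D.run x ω t).work i).cells ≤
        C * (Ln x * (κ x + Nat.log 2 (Ln x) + Qn κ (lamD Q e) x)) + C := by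
  obtain ⟨D, d, hD, h⟩ := TS.Q.dec6 Q e hκ hs hu hsN huN
  obtain ⟨C1, hC1, hC⟩ := CH.sh_le (Q := dum Q e)
  obtain ⟨A, hA⟩ := budS_le Q e hκ
  refine ⟨D, d * A + (10 * C1 + 211) * (40004 * (512 * C1)) + d, hD, fun x ω => ?_⟩
  obtain ⟨h1, h2⟩ := h x ω
  have hbud := hA x (hκ1 x)
  refine ⟨fun T hT w hw => h1 T (le_trans ?_ hT) w hw, fun t i => (h2 t i).trans ?_⟩
  · calc _ ≤ (2 ^ (A * (κ x * Ln x))) ^ d := Nat.pow_le_pow_left hbud d
      _ = 2 ^ (A * (κ x * Ln x) * d) := by rw [← pow_mul]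
      _ ≤ _ := by
        apply Nat.pow_le_pow_right (by norm_num)
        calc A * (κ x * Ln x) * d = d * A * (κ x * Ln x) := by ring
          _ ≤ _ := Nat.mul_le_mul_right _ (by omega)
  · have hk1 := hκ1 x
    have hJ := CH.JT_le (Q := dum Q e) (κ := κ) (lam := lamD Q e) x hk1
    have hls := CH.log_sh_le (Q := dum Q e) hC x
    have hwd := CH.wd_le (Q := dum Q e) (κ := κ) (lam := lamD Q e) x
    have hsk : ksD Q e κ x ≤ κ x := CH.sk_le hk1
    change (prD Q e κ x).JT ≤ _ at hJ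
    change (prD Q e κ x).wd ≤ _ at hwd
    have hCx := hC x
    generalize Sel.Qn κ (lamD Q e) x = W at *
    generalize (prD Q e κ x).JT = JT at *
    generalize (prD Q e κ x).wd = wd at *
    generalize ksD Q e κ x = ks at *
    generalize bdS Q e κ x = bd at *
    generalize CH.sh (dum Q e) x = sh at *
    set R := κ x + Nat.log 2 (Sel.Ln x) + W with hR
    have hlog : Nat.log 2 (x.length + bd + 2) ≤ A * (Sel.Ln x * R) := by
      have h3 := Nat.log_mono_right (b := 2) hbud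
      rw [Nat.log_pow (by norm_num)] at h3
      refine h3.trans ?_
      apply Nat.mul_le_mul_left
      rw [mul_comm]
      exact Nat.mul_le_mul_left _ (by omega)
    have hJ2 : 2 * JT + ks ≤ (10 * C1 + 211) * R := by
      have e1 : 2 * JT + ks ≤
          16 * W + 10 * Nat.log 2 (Sel.Ln x) + 10 * C1 + 180 + κ x := by omega
      have e2 : 10 * C1 + 180 ≤ (10 * C1 + 180) * κ x := Nat.le_mul_of_pos_right _ hk1
      have e3 : (10 * C1 + 211) * R = (10 * C1 + 211) * κ x +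
          (10 * C1 + 211) * Nat.log 2 (Sel.Ln x) + (10 * C1 + 211) * W := by rw [hR]; ring
      have e4 : (10 * C1 + 211) * κ x = (10 * C1 + 180) * κ x + 31 * κ x := by ring
      have e5 : 10 * Nat.log 2 (Sel.Ln x) ≤ (10 * C1 + 211) * Nat.log 2 (Sel.Ln x) :=
        Nat.mul_le_mul_right _ (by omega)
      have e6 : 16 * W ≤ (10 * C1 + 211) * W := Nat.mul_le_mul_right _ (by omega)
      omega
    have hw : wd ≤ 40004 * (512 * C1) * Sel.Ln x := by
      refine hwd.trans ?_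
      calc 40004 * (512 * sh) ≤ 40004 * (512 * (C1 * Sel.Ln x)) :=
            Nat.mul_le_mul_left _ (Nat.mul_le_mul_left _ hCx)
        _ = _ := by ring
    have hprod := Nat.mul_le_mul hJ2 hw
    calc _ ≤ d * (A * (Sel.Ln x * R)) +
          (10 * C1 + 211) * R * (40004 * (512 * C1) * Sel.Ln x) + d := by
          have := Nat.mul_le_mul_left d hlog
          omega
      _ = (d * A + (10 * C1 + 211) * (40004 * (512 * C1))) * (Sel.Ln x * R) + d := by ring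
      _ ≤ (d * A + (10 * C1 + 211) * (40004 * (512 * C1)) + d) * (Sel.Ln x * R) +
          (d * A + (10 * C1 + 211) * (40004 * (512 * C1)) + d) := by
          apply Nat.add_le_add
          · exact Nat.mul_le_mul_right _ (Nat.le_add_right _ _)
          · exact Nat.le_add_left _ _

/-- From the machine to the class. -/
theorem dtisp_acS (Q : Chm) (e : ℕ) {κ s : ℕ → ℕ} {s1 u1 : List Bool → ℕ}
    (hκ : LFx (fun x => κ x.length)) (hκ1 : ∀ n, 1 ≤ κ n)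
    (hs1 : LFx s1) (hu1 : LFx u1) (hsN : ∀ x, s1 x < Q.N0 x) (huN : ∀ x, u1 x < Q.N0 x) (B : ℕ)
    (hB : ∀ x, Ln x * (κ x.length + Nat.log 2 (Ln x) +
      Qn (fun x => κ x.length) (lamD Q e) x) ≤ B * s x.length + B) :
    DTISP (fun n => (n + 2) ^ κ n) s {x | acS Q e (fun x => κ x.length) s1 u1 x} := by
  obtain ⟨D, C, hD, h⟩ := dec7 Q e hκ hs1 hu1 hsN huN (fun x => hκ1 x.length)
  refine dtisp_of (C := C * B + C) hD (fun x ω => ⟨fun T hT w hw => (h x ω).1 T (le_trans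
      (Nat.pow_le_pow_right (by norm_num) (Nat.mul_le_mul_right _ (Nat.le_add_left _ _))) hT) w hw,
      fun t i => ((h x ω).2 t i).trans ?_⟩)
  calc _ ≤ C * (B * s x.length + B) + C := Nat.add_le_add_right (Nat.mul_le_mul_left _ (hB x)) _
    _ = C * B * s x.length + (C * B + C) := by ring
    _ ≤ (C * B + C) * s x.length + (C * B + C) :=
      Nat.add_le_add_right (Nat.mul_le_mul_right _ (Nat.le_add_right _ _)) _

/-! ### Correctness -/

/-- Soundness. -/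
theorem acS_sound (Q : Chm) (e : ℕ) (κ : List Bool → ℕ) (x : List Bool) {s u : ℕ}
    (hs : s < Q.N0 x) (hu : u < Q.N0 x)
    (h : rch (Q.N0 x) (fun v u => edD Q e κ x v u ≠ 0) (κ x) s u) :
    ∃ c, (1 / ((prD Q e κ x).Y : ℚ)) ^ 2 ^ κ x ≤ hit (Q.cs x) u c s := by
  obtain ⟨Y, hYe⟩ : ∃ Y : ℚ, Y = ((prD Q e κ x).Y : ℚ) := ⟨_, rfl⟩
  have hY : 0 < Y := by rw [hYe]; exact Nat.cast_pos.2 (Y_pos x)
  rw [← hYe]
  have hq : 0 ≤ 1 / Y := one_div_nonneg.2 hY.le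
  have key : ∀ v < Q.N0 x, ∀ u < Q.N0 x, edD Q e κ x v u ≠ 0 →
      ∃ c, 1 / Y ≤ hit (Q.cs x) u c v := by
    intro v hv u hu h1
    obtain ⟨c, hc, h2⟩ := TS.edg_ne.1 h1
    refine ⟨c, ?_⟩
    have h3 := aD_ok (Q := Q) (e := e) (κ := κ) x c (by omega) v hv u hu
    have h4 : ((cD Q e κ x + 1 : ℕ) : ℚ) ≤ (aD Q e κ x c v u : ℚ) := Nat.cast_le.2 h2
    rw [Nat.cast_add, Nat.cast_one] at h4
    have h5 := (abs_le.1 h3).2
    rw [← hYe] at h5
    rw [div_le_iff₀ hY]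
    linarith only [h4, h5]
  exact hit_of_rch (N := Q.N0 x) (E := fun v u => edD Q e κ x v u ≠ 0) hq key (κ x) s hs u hu h

/-- The number of samples is polynomial. -/
theorem Y_pb (Q : Chm) (e : ℕ) {κ : List Bool → ℕ} (hκ : LFx κ) :
    ∃ d, ∀ x, (prD Q e κ x).Y ≤ (x.length + 2) ^ d := by
  have hπ : PrmC (prD Q e κ) := CH.par_prmC (by norm_num) hκ (lfx_lamD Q e)
  obtain ⟨d, hd⟩ := LF.pb (hπ.Y 0)
  refine ⟨d, fun x => ?_⟩
  have h1 := hd x Fin.elim0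
  have h2 : mu x (Fin.elim0 : Fin 0 → ℕ) = x.length + 2 := by simp [mu]
  rw [h2] at h1
  exact h1

/-- Completeness. -/
theorem acS_complete (Q : Chm) (e E : ℕ) (κ : List Bool → ℕ) (x : List Bool) {s u : ℕ}
    (hE : Q.N0 x * (x.length + 2) ^ (2 * e) ≤ (x.length + 2) ^ E)
    (hs : s < Q.N0 x) (hu : u < Q.N0 x)
    (h : 1 / ((x.length : ℚ) + 2) ^ (e * 2 ^ κ x) ≤ hit (Q.cs x) u (Q.T x) s) :
    rch (Q.N0 x) (fun v u => edD Q E κ x v u ≠ 0) (κ x) s u := by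
  obtain ⟨n, hn⟩ : ∃ n : ℚ, n = (x.length : ℚ) + 2 := ⟨_, rfl⟩
  have hn1 : 1 ≤ n := by
    have : (0 : ℚ) ≤ (x.length : ℚ) := Nat.cast_nonneg _
    linarith
  have hN1 : (1 : ℚ) ≤ (Q.N0 x : ℚ) := by exact_mod_cast Q.N_pos x
  have hT0 : (0 : ℚ) ≤ (Q.T x : ℚ) := Nat.cast_nonneg _
  obtain ⟨W, hW⟩ : ∃ W : ℚ, W = 2 * (Q.N0 x : ℚ) * ((Q.T x : ℚ) + 1) * n ^ e := ⟨_, rfl⟩
  have hne : 1 ≤ n ^ e := one_le_pow₀ hn1
  have hG : 1 ≤ 2 * (Q.N0 x : ℚ) * ((Q.T x : ℚ) + 1) := by nlinarith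
  have hWn : n ^ e ≤ W := by
    rw [hW]
    exact le_mul_of_one_le_left (by linarith) hG
  have hW1 : 1 ≤ W := hne.trans hWn
  have hW2 : 2 * (Q.N0 x : ℚ) * ((Q.T x : ℚ) + 1) ≤ W := by
    rw [hW]
    exact le_mul_of_one_le_right (by linarith) hne
  have hS : 4 * W ^ 2 ≤ (CH.sN (dum Q E) x : ℚ) := by
    rw [sN_cast, ← hn]
    have h1 : (Q.N0 x : ℚ) * n ^ (2 * e) ≤ n ^ E := by
      rw [hn]
      exact_mod_cast hE
    have h2 : 0 ≤ 16 * (((Q.T x : ℚ) + 1) ^ 2 * Q.N0 x) := by positivity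
    have h3 := mul_le_mul_of_nonneg_left h1 h2
    have e1 : 4 * W ^ 2 = 16 * (((Q.T x : ℚ) + 1) ^ 2 * Q.N0 x) * ((Q.N0 x : ℚ) * n ^ (2 * e)) := by
      rw [hW, pow_mul' n 2 e]; ring
    rw [e1]
    refine h3.trans (le_of_eq ?_)
    ring
  refine rch_of_hit (cs := Q.cs x) (T := Q.T x) (Q.closed x) hW1 hW2 ?_ (κ x) s hs u hu (Q.T x)
    le_rfl ?_
  · intro v hv u hu c hc h1
    refine TS.edg_ne.2 ⟨c, by omega, ?_⟩
    have h3 := aD_ok (Q := Q) (e := E) (κ := κ) x c hc v hv u hu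
    have h5 := abs_le.1 h3
    have h6 : (cD Q E κ x : ℚ) * (2 * CH.sN (dum Q E) x) ≤ (prD Q E κ x).Y := cD_aux (Y_ge x)
    have hc1 : (1 : ℚ) ≤ (cD Q E κ x : ℚ) := by
      have : 1 ≤ cD Q E κ x := Nat.succ_le_succ (Nat.zero_le _)
      exact_mod_cast this
    have hY : (0 : ℚ) < ((prD Q E κ x).Y : ℚ) := Nat.cast_pos.2 (Y_pos x)
    have h7 : 1 ≤ W ^ 2 * hit (Q.cs x) u c v := by
      have := mul_le_mul_of_nonneg_left h1 (sq_nonneg W)
      rwa [← mul_pow, mul_one_div_cancel (by linarith), one_pow] at this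
    have h8 : (cD Q E κ x : ℚ) < aD Q E κ x c v u := by
      generalize (cD Q E κ x : ℚ) = c0 at *
      generalize ((prD Q E κ x).Y : ℚ) = Y at *
      generalize (CH.sN (dum Q E) x : ℚ) = S at *
      generalize (aD Q E κ x c v u : ℚ) = a at *
      generalize hit (Q.cs x) u c v = p at *
      have h9 : Y ≤ W ^ 2 * (Y * p) := by
        have := mul_le_mul_of_nonneg_left h7 hY.le
        linarith
      have h10 : W ^ 2 * (8 * c0) ≤ Y := by
        have h11 := mul_le_mul_of_nonneg_left hS (show 0 ≤ 2 * c0 by linarith)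
        linarith
      have h12 : 8 * c0 ≤ Y * p :=
        le_of_mul_le_mul_left (h10.trans h9) (by positivity)
      linarith [h5.1]
    exact_mod_cast h8
  · refine le_trans ?_ h
    rw [← hn]
    have hW0 : 0 < W := by linarith
    have h1 : 1 / W ≤ 1 / n ^ e := one_div_le_one_div_of_le (by linarith) hWn
    have h2 : (1 / W) ≤ 1 := by rw [div_le_one hW0]; exact hW1
    calc (1 / W) ^ (2 ^ κ x + 1) ≤ (1 / W) ^ (2 ^ κ x) :=
          pow_le_pow_of_le_one (by positivity) h2 (Nat.le_succ _)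
      _ ≤ (1 / n ^ e) ^ (2 ^ κ x) := pow_le_pow_left₀ (by positivity) h1 _
      _ = 1 / n ^ (e * 2 ^ κ x) := by rw [one_div, one_div, inv_pow, ← pow_mul]

end Vale.Agent.P313.SV
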