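import Vale.Agent.P313.R2.H284.SavB

/-!
One-sided machines with success probability `n ^ (- e 2 ^ κ)`.
-/

namespace Vale.Agent.P313.SV

open Finset RI CP Sel

/-- A single chain. -/
def one (Q : Chn) : Chm where
  N0 := Q.N0
  T := Q.T
  δ := Q.δ
  lfN := Q.lfN
  lfT := Q.lfT
  lfδ := Q.lfδ
  N_pos x := by have := Q.two_le x; omega
  T_pos := Q.T_pos
  cl x v hv b := by
    rcases Q.or_lt x v b with h1 | h1 <;> omega

theorem one_pb (Q : Chn) (e : ℕ) : ∃ E, ∀ x : List Bool,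
    (one Q).N0 x * (x.length + 2) ^ (2 * e) ≤ (x.length + 2) ^ E := by
  obtain ⟨d, hd⟩ := LF.pb Q.lfN
  refine ⟨d + 2 * e, fun x => ?_⟩
  have h1 := hd x Fin.elim0
  have h2 : mu x (Fin.elim0 : Fin 0 → ℕ) = x.length + 2 := by simp [mu]
  rw [h2] at h1
  rw [pow_add]
  exact Nat.mul_le_mul_right _ h1

/-- The separation for chains, with any bound for the space. -/
theorem small_gen (Q : Chn) (e : ℕ) {κ s : ℕ → ℕ} (hκ : LFx (fun x => κ x.length))
    (hκ1 : ∀ n, 1 ≤ κ n)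
    (hB : ∀ E, ∃ B, ∀ x, Ln x * (κ x.length + Nat.log 2 (Ln x) +
      Qn (fun x => κ x.length) (lamD (one Q) E) x) ≤ B * s x.length + B) :
    ∃ (A : Set (List Bool)) (d : ℕ), DTISP (fun n => (n + 2) ^ κ n) s A ∧
      ∀ x : List Bool,
        (1 / ((x.length : ℚ) + 2) ^ (e * 2 ^ κ x.length) ≤ PT.pr Q x → x ∈ A) ∧
        (PT.pr Q x < 1 / ((x.length : ℚ) + 2) ^ (d * 2 ^ κ x.length) → x ∉ A) := by
  obtain ⟨E, hE⟩ := one_pb Q e
  obtain ⟨B, hB⟩ := hB E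
  obtain ⟨d, hd⟩ := Y_pb (one Q) E hκ
  refine ⟨_, d, dtisp_acS (one Q) E hκ hκ1 (s1 := Q.st) (u1 := fun _ => 0) Q.lfst lfx_zero
    Q.st_lt (fun x => (one Q).N_pos x) B hB, fun x => ⟨fun h => ?_, fun h hc => ?_⟩⟩
  · exact acS_complete (one Q) e E (fun x => κ x.length) x (hE x) (Q.st_lt x)
      ((one Q).N_pos x) h
  · obtain ⟨c, hc⟩ := acS_sound (one Q) E (fun x => κ x.length) x (Q.st_lt x)
      ((one Q).N_pos x) hc
    have h1 := hit_mono (cs := Q.cs x) (u := 0) (fun b => Chn_fix Q x 0 (by norm_num) b) c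
      (Q.T x) (Q.st x)
    have h2 : hit (Q.cs x) 0 (Q.T x + c) (Q.st x) = PT.pr Q x :=
      hit_stable (Q.halts x) 0 (RchJ.zero _) c
    rw [add_comm c, h2] at h1
    have hY : (0 : ℚ) < ((prD (one Q) E (fun x => κ x.length) x).Y : ℚ) :=
      Nat.cast_pos.2 (Y_pos x)
    have h3 : ((prD (one Q) E (fun x => κ x.length) x).Y : ℚ) ≤ ((x.length : ℚ) + 2) ^ d := by
      exact_mod_cast hd x
    have h4 : 1 / ((x.length : ℚ) + 2) ^ (d * 2 ^ κ x.length) ≤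
        (1 / ((prD (one Q) E (fun x => κ x.length) x).Y : ℚ)) ^ 2 ^ κ x.length := by
      rw [pow_mul, one_div_pow]
      exact one_div_le_one_div_of_le (pow_pos hY _) (pow_le_pow_left₀ hY.le h3 _)
    exact absurd (h4.trans (hc.trans h1)) (not_le.2 h)

theorem small_chn (Q : Chn) (e : ℕ) {κ : ℕ → ℕ} (hκ : LFx (fun x => κ x.length))
    (hκ1 : ∀ n, 1 ≤ κ n) :
    ∃ (A : Set (List Bool)) (d : ℕ), DTISP (fun n => (n + 2) ^ κ n)
      (fun n => Nat.log 2 (n + 2) ^ 2 / (κ n * (Nat.log 2 (κ n) + 1)) +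
        κ n * Nat.log 2 (n + 2)) A ∧
      ∀ x : List Bool,
        (1 / ((x.length : ℚ) + 2) ^ (e * 2 ^ κ x.length) ≤ PT.pr Q x → x ∈ A) ∧
        (PT.pr Q x < 1 / ((x.length : ℚ) + 2) ^ (d * 2 ^ κ x.length) → x ∉ A) :=
  small_gen Q e hκ hκ1 (fun E => bd_poly (one Q) E hκ1)

/-- Separation by the success probability. -/
theorem small_sep {κ : ℕ → ℕ} (hκ : LogConstructible κ) (hκ1 : ∀ n, 1 ≤ κ n)
    (M : RTM) (c e : ℕ)
    (hM : M.Bounded (fun n => (n + 2) ^ c) (fun n => c * Nat.log 2 (n + 2))) :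
    ∃ (A : Set (List Bool)) (d : ℕ), DTISP (fun n => (n + 2) ^ κ n)
      (fun n => Nat.log 2 (n + 2) ^ 2 / (κ n * (Nat.log 2 (κ n) + 1)) +
        κ n * Nat.log 2 (n + 2)) A ∧
      ∀ x : List Bool,
        (1 / ((x.length : ℚ) + 2) ^ (e * 2 ^ κ x.length) ≤
          M.probAt x true ((x.length + 2) ^ c) 0 M.init → x ∈ A) ∧
        (M.probAt x true ((x.length + 2) ^ c) 0 M.init <
          1 / ((x.length : ℚ) + 2) ^ (d * 2 ^ κ x.length) → x ∉ A) := by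
  obtain ⟨Q, hQ⟩ := PT.IsPr.machine M c hM
  obtain ⟨A, d, hA, h⟩ := small_chn Q e (lfx_of_constructible hκ) hκ1
  refine ⟨A, d, hA, fun x => ?_⟩
  have h1 := h x
  rw [hQ] at h1
  exact h1

/-- One-sided machines. -/
theorem small_lang {κ : ℕ → ℕ} (hκ : LogConstructible κ) (hκ1 : ∀ n, 1 ≤ κ n)
    (M : RTM) (c e : ℕ)
    (hM : M.Bounded (fun n => (n + 2) ^ c) (fun n => c * Nat.log 2 (n + 2)))
    (A : Set (List Bool))
    (hA : ∀ x : List Bool,
      (x ∈ A → 1 / ((x.length : ℚ) + 2) ^ (e * 2 ^ κ x.length) ≤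
        M.probAt x true ((x.length + 2) ^ c) 0 M.init) ∧
      (x ∉ A → M.probAt x true ((x.length + 2) ^ c) 0 M.init = 0)) :
    DTISP (fun n => (n + 2) ^ κ n)
      (fun n => Nat.log 2 (n + 2) ^ 2 / (κ n * (Nat.log 2 (κ n) + 1)) +
        κ n * Nat.log 2 (n + 2)) A := by
  obtain ⟨A', d, hA', h⟩ := small_sep hκ hκ1 M c e hM
  rw [PT.set_eq (A := A) (A' := A') (fun x hx => (h x).1 ((hA x).1 hx))
    (fun x hx => (h x).2 (by rw [(hA x).2 hx]; positivity))]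
  exact hA'

/-! ### Real exponents -/

theorem dtisp_scale {A : Set (List Bool)} {κ : ℕ → ℕ} (hκ1 : ∀ n, 1 ≤ κ n) (E : ℕ) (hE : 1 ≤ E)
    (h : DTISP (fun n => (n + 2) ^ (E * κ n))
      (fun n => Nat.log 2 (n + 2) ^ 2 / (E * κ n * (Nat.log 2 (E * κ n) + 1)) +
        E * κ n * Nat.log 2 (n + 2)) A) :
    DTISP (fun n => (n + 2) ^ κ n)
      (fun n => Nat.log 2 (n + 2) ^ 2 / (κ n * (Nat.log 2 (κ n) + 1)) +
        κ n * Nat.log 2 (n + 2)) A := by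
  obtain ⟨M, c, hM⟩ := h
  refine ⟨M, E * c, Beta.decides_mono hM (fun n => ?_) (fun n => ?_)⟩
  · apply le_of_eq
    push_cast
    rw [← pow_mul, ← pow_mul]
    congr 1
    ring
  · have h1 : κ n * (Nat.log 2 (κ n) + 1) ≤ E * κ n * (Nat.log 2 (E * κ n) + 1) := by
      have e1 : κ n ≤ E * κ n := Nat.le_mul_of_pos_left _ hE
      exact Nat.mul_le_mul e1 (Nat.succ_le_succ (Nat.log_mono_right e1))
    have h2 : 0 < κ n * (Nat.log 2 (κ n) + 1) := Nat.mul_pos (hκ1 n) (Nat.succ_pos _)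
    have h3 : Nat.log 2 (n + 2) ^ 2 / (E * κ n * (Nat.log 2 (E * κ n) + 1)) ≤
        Nat.log 2 (n + 2) ^ 2 / (κ n * (Nat.log 2 (κ n) + 1)) := Nat.div_le_div_left h1 h2
    have h4 : c * (Nat.log 2 (n + 2) ^ 2 / (E * κ n * (Nat.log 2 (E * κ n) + 1)) +
        E * κ n * Nat.log 2 (n + 2)) + c ≤
        E * c * (Nat.log 2 (n + 2) ^ 2 / (κ n * (Nat.log 2 (κ n) + 1)) +
        κ n * Nat.log 2 (n + 2)) + E * c := by
      generalize Nat.log 2 (n + 2) ^ 2 / (E * κ n * (Nat.log 2 (E * κ n) + 1)) = u at *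
      generalize Nat.log 2 (n + 2) ^ 2 / (κ n * (Nat.log 2 (κ n) + 1)) = v at *
      have e1 : c * u ≤ E * c * v := by
        rw [mul_comm E c, mul_assoc]
        exact Nat.mul_le_mul_left _ (h3.trans (Nat.le_mul_of_pos_left _ hE))
      have e2 : c ≤ E * c := Nat.le_mul_of_pos_left _ hE
      have e3 : c * (E * κ n * Nat.log 2 (n + 2)) = E * c * (κ n * Nat.log 2 (n + 2)) := by ring
      rw [mul_add, mul_add, e3]
      omega
    exact_mod_cast h4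

theorem gap2_le {a b κ n : ℕ} (ha : 0 < a) (hb : 2 * a < b) (e : ℕ)
    (hκ2 : Nat.log 2 (n + 2) ^ a < (κ + 1) ^ b) :
    1 / ((n : ℝ) + 2) ^ (1 * 2 ^ ((4 * e + 1) * κ)) ≤
      2 ^ (-((2 : ℝ) ^ (e * Real.logb 2 ((n : ℝ) + 2) ^ ((a : ℝ) / b)))) := by
  have hlL : (Nat.log 2 (n + 2) : ℝ) ≤ Real.logb 2 (n + 2) := by
    have := Real.natLog_le_logb (n + 2) 2
    push_cast at this
    exact this
  have hL : 1 ≤ Nat.log 2 (n + 2) := Nat.log_pos (by norm_num) (by omega)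
  have hLR : (1 : ℝ) ≤ Nat.log 2 (n + 2) := by exact_mod_cast hL
  have hlt : Real.logb 2 ((n : ℝ) + 2) < Nat.log 2 (n + 2) + 1 := by
    have h2 := Nat.lt_pow_succ_log_self (b := 2) (by norm_num) (n + 2)
    have h3 : ((n : ℝ) + 2) < 2 ^ ((Nat.log 2 (n + 2) : ℝ) + 1) := by
      have h4 : ((n + 2 : ℕ) : ℝ) < ((2 ^ (Nat.log 2 (n + 2) + 1) : ℕ) : ℝ) := by
        exact_mod_cast h2
      have h5 : (2 : ℝ) ^ ((Nat.log 2 (n + 2) : ℝ) + 1) = 2 ^ (Nat.log 2 (n + 2) + 1) := by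
        rw [← Real.rpow_natCast]
        push_cast
        rfl
      rw [h5]
      push_cast at h4
      exact h4
    rw [Real.logb_lt_iff_lt_rpow (by norm_num) (by positivity)]
    exact h3
  have h3 : ((n : ℝ) + 2) = 2 ^ (Real.logb 2 ((n : ℝ) + 2)) := by
    rw [Real.rpow_logb (by norm_num) (by norm_num) (by positivity)]
  have hk := kap_ge ha hb hL hlL hlt hκ2
  have hl1 : 1 ≤ Real.logb 2 ((n : ℝ) + 2) := hLR.trans hlL
  generalize Real.logb 2 ((n : ℝ) + 2) = l at *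
  have h4 : 1 / ((n : ℝ) + 2) ^ (1 * 2 ^ ((4 * e + 1) * κ)) =
      2 ^ (-(l * ((1 * 2 ^ ((4 * e + 1) * κ) : ℕ) : ℝ))) := by
    rw [h3, ← Real.rpow_natCast, ← Real.rpow_mul (by norm_num), one_div,
      ← Real.rpow_neg (by norm_num)]
  rw [h4]
  apply Real.rpow_le_rpow_of_exponent_le (by norm_num)
  apply neg_le_neg
  have h5 : (2 : ℝ) ^ ((e : ℝ) * l ^ ((a : ℝ) / b)) ≤ 2 ^ (((4 * e + 1) * κ : ℕ) : ℝ) := by
    apply Real.rpow_le_rpow_of_exponent_le (by norm_num)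
    push_cast
    have he : (0 : ℝ) ≤ e := Nat.cast_nonneg _
    have hκ0 : (0 : ℝ) ≤ κ := Nat.cast_nonneg _
    have := mul_le_mul_of_nonneg_left hk he
    nlinarith
  rw [Real.rpow_natCast] at h5
  push_cast
  have h6 : (0 : ℝ) ≤ 2 ^ ((4 * e + 1) * κ) := by positivity
  refine h5.trans ?_
  rw [one_mul]
  exact le_mul_of_one_le_left h6 hl1

theorem gap3_le {a b κ n : ℕ} (ha : 0 < a) (hb : 2 * a < b) (e d : ℕ)
    (hκ1 : κ ^ b ≤ Nat.log 2 (n + 2) ^ a) :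
    2 ^ (-((2 : ℝ) ^ (((b + d + (4 * e + 1) : ℕ) : ℝ) *
      Real.logb 2 ((n : ℝ) + 2) ^ ((a : ℝ) / b)))) ≤
      1 / ((n : ℝ) + 2) ^ (d * 2 ^ ((4 * e + 1) * κ)) := by
  have hb0 : 0 < b := by omega
  have haR : (1 : ℝ) ≤ a := by exact_mod_cast ha
  have hbR : (0 : ℝ) < b := by exact_mod_cast hb0
  have hlL : (Nat.log 2 (n + 2) : ℝ) ≤ Real.logb 2 (n + 2) := by
    have := Real.natLog_le_logb (n + 2) 2
    push_cast at this
    exact this
  have hL : 1 ≤ Nat.log 2 (n + 2) := Nat.log_pos (by norm_num) (by omega)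
  have hLR : (1 : ℝ) ≤ Nat.log 2 (n + 2) := by exact_mod_cast hL
  have h3 : ((n : ℝ) + 2) = 2 ^ (Real.logb 2 ((n : ℝ) + 2)) := by
    rw [Real.rpow_logb (by norm_num) (by norm_num) (by positivity)]
  have hk := Beta.kap_le hb0 hκ1
  have hl1 : 1 ≤ Real.logb 2 ((n : ℝ) + 2) := hLR.trans hlL
  have hβ0 : 0 ≤ (a : ℝ) / b := by positivity
  have hky : (κ : ℝ) ≤ Real.logb 2 ((n : ℝ) + 2) ^ ((a : ℝ) / b) :=
    hk.trans (Real.rpow_le_rpow (by positivity) hlL hβ0)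
  generalize Real.logb 2 ((n : ℝ) + 2) = l at *
  have hl0 : 0 ≤ l := by linarith
  obtain ⟨y, hy⟩ : ∃ y : ℝ, y = l ^ ((a : ℝ) / b) := ⟨_, rfl⟩
  have hy1 : 1 ≤ y := by rw [hy]; exact Real.one_le_rpow hl1 hβ0
  have hly : l = y ^ ((b : ℝ) / a) := by
    rw [hy, ← Real.rpow_mul hl0, div_mul_div_cancel₀ hbR.ne', div_self (by linarith),
      Real.rpow_one]
  rw [← hy] at hky ⊢
  have h4 : 1 / ((n : ℝ) + 2) ^ (d * 2 ^ ((4 * e + 1) * κ)) =
      2 ^ (-(l * ((d * 2 ^ ((4 * e + 1) * κ) : ℕ) : ℝ))) := by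
    rw [h3, ← Real.rpow_natCast, ← Real.rpow_mul (by norm_num), one_div,
      ← Real.rpow_neg (by norm_num)]
  rw [h4]
  apply Real.rpow_le_rpow_of_exponent_le (by norm_num)
  apply neg_le_neg
  have g1 : l ≤ 2 ^ ((b : ℝ) * y) := by
    have e1 : y ≤ 2 ^ y := by
      have := one_add_mul_self_le_rpow_one_add (s := 1) (by norm_num) hy1
      norm_num at this
      linarith
    calc l = y ^ ((b : ℝ) / a) := hly
      _ ≤ (2 ^ y) ^ ((b : ℝ) / a) := Real.rpow_le_rpow (by linarith) e1 (by positivity)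
      _ = 2 ^ (y * ((b : ℝ) / a)) := by rw [← Real.rpow_mul (by norm_num)]
      _ ≤ 2 ^ ((b : ℝ) * y) := by
        apply Real.rpow_le_rpow_of_exponent_le (by norm_num)
        rw [mul_comm y]
        exact mul_le_mul_of_nonneg_right (div_le_self hbR.le haR) (by linarith)
  have g2 : (d : ℝ) ≤ 2 ^ ((d : ℝ) * y) := by
    have e1 : (d : ℝ) ≤ 2 ^ (d : ℝ) := by
      rw [Real.rpow_natCast]
      exact_mod_cast (Nat.lt_two_pow_self (n := d)).le
    refine e1.trans (Real.rpow_le_rpow_of_exponent_le (by norm_num) ?_)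
    exact le_mul_of_one_le_right (Nat.cast_nonneg _) hy1
  have g3 : (2 : ℝ) ^ ((4 * e + 1) * κ) ≤ 2 ^ (((4 * e + 1 : ℕ) : ℝ) * y) := by
    rw [← Real.rpow_natCast]
    apply Real.rpow_le_rpow_of_exponent_le (by norm_num)
    rw [Nat.cast_mul]
    exact mul_le_mul_of_nonneg_left hky (Nat.cast_nonneg _)
  have g4 : (2 : ℝ) ^ (((b + d + (4 * e + 1) : ℕ) : ℝ) * y) =
      2 ^ ((b : ℝ) * y) * (2 ^ ((d : ℝ) * y) * 2 ^ (((4 * e + 1 : ℕ) : ℝ) * y)) := by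
    rw [← Real.rpow_add (by norm_num), ← Real.rpow_add (by norm_num)]
    congr 1
    push_cast
    ring
  rw [g4, Nat.cast_mul, Nat.cast_pow, Nat.cast_ofNat]
  refine mul_le_mul g1 (mul_le_mul g2 g3 (by positivity) (by positivity)) (by positivity)
    (by positivity)

/-- Separation, with real exponents. -/
theorem small_sepB (a b : ℕ) (ha : 0 < a) (hb : 2 * a < b) (M : RTM) (c e : ℕ)
    (hM : M.Bounded (fun n => (n + 2) ^ c) (fun n => c * Nat.log 2 (n + 2))) :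
    ∃ (A : Set (List Bool)) (d : ℕ),
      (∃ (D : RTM) (C : ℝ), D.Decides A
        (fun n => 2 ^ (C * Real.logb 2 (n + 2) ^ (1 + (a : ℝ) / b)))
        (fun n => C * Real.logb 2 (n + 2) ^ (2 - (a : ℝ) / b) /
          Real.logb 2 (Real.logb 2 (n + 2) + 1))) ∧
      ∀ x : List Bool,
        (2 ^ (-((2 : ℝ) ^ (e * Real.logb 2 ((x.length : ℝ) + 2) ^ ((a : ℝ) / b)))) ≤
          (M.probAt x true ((x.length + 2) ^ c) 0 M.init : ℝ) → x ∈ A) ∧
        ((M.probAt x true ((x.length + 2) ^ c) 0 M.init : ℝ) <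
          2 ^ (-((2 : ℝ) ^ (d * Real.logb 2 ((x.length : ℝ) + 2) ^ ((a : ℝ) / b)))) →
            x ∉ A) := by
  obtain ⟨Q, hQ⟩ := PT.IsPr.machine M c hM
  have h0 : ∀ n : ℕ, 1 ≤ rt a b (Nat.log 2 (n + 2)) := fun n =>
    rt_pos (Nat.le_log_of_pow_le (by norm_num) (by omega)) (by omega)
  have h1 : LFx (fun x => (4 * e + 1) * rt a b (Nat.log 2 (x.length + 2))) :=
    P313.LF.mul (P313.LF.const (4 * e + 1)) (lfx_rt a b)
  obtain ⟨A, d, hA, h⟩ := small_chn Q 1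
    (κ := fun n => (4 * e + 1) * rt a b (Nat.log 2 (n + 2))) h1
    (fun n => Nat.mul_pos (by omega) (h0 n))
  refine ⟨A, b + d + (4 * e + 1), dtisp_beta ha hb (fun n => rt_spec (by omega))
    (dtisp_scale h0 (4 * e + 1) (by omega) hA), fun x => ?_⟩
  have h2 := h x
  rw [hQ] at h2
  refine ⟨fun hx => h2.1 ?_, fun hx => h2.2 ?_⟩
  · have hg := gap2_le (n := x.length) ha hb e
      (rt_spec (a := a) (b := b) (L := Nat.log 2 (x.length + 2)) (by omega)).2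
    rw [← Rat.cast_le (K := ℝ)]
    push_cast
    exact hg.trans hx
  · have hg := gap3_le (n := x.length) ha hb e d
      (rt_spec (a := a) (b := b) (L := Nat.log 2 (x.length + 2)) (by omega)).1
    rw [← Rat.cast_lt (K := ℝ)]
    push_cast
    exact lt_of_lt_of_le hx hg

/-- One-sided machines, with real exponents. -/
theorem small_langB (a b : ℕ) (ha : 0 < a) (hb : 2 * a < b) (M : RTM) (c e : ℕ)
    (hM : M.Bounded (fun n => (n + 2) ^ c) (fun n => c * Nat.log 2 (n + 2)))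
    (A : Set (List Bool))
    (hA : ∀ x : List Bool,
      (x ∈ A → 2 ^ (-((2 : ℝ) ^ (e * Real.logb 2 ((x.length : ℝ) + 2) ^ ((a : ℝ) / b)))) ≤
        (M.probAt x true ((x.length + 2) ^ c) 0 M.init : ℝ)) ∧
      (x ∉ A → M.probAt x true ((x.length + 2) ^ c) 0 M.init = 0)) :
    ∃ (D : RTM) (C : ℝ), D.Decides A
        (fun n => 2 ^ (C * Real.logb 2 (n + 2) ^ (1 + (a : ℝ) / b)))
        (fun n => C * Real.logb 2 (n + 2) ^ (2 - (a : ℝ) / b) /
          Real.logb 2 (Real.logb 2 (n + 2) + 1)) := by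
  obtain ⟨A', d, hA', h⟩ := small_sepB a b ha hb M c e hM
  rw [PT.set_eq (A := A) (A' := A') (fun x hx => (h x).1 ((hA x).1 hx))
    (fun x hx => (h x).2 (by rw [(hA x).2 hx, Rat.cast_zero]; positivity))]
  exact hA'

end Vale.Agent.P313.SV
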