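import Vale.Agent.P313.R2.H284.SavF
import Vale.Agent.P313.R2.H814.Few

/-!
One-sided machines with small success probability and few coins.
-/

namespace Vale.Agent.P313.SV

open Finset RI CP Sel

/-- Separation by the success probability, for machines with at most `2 ^ lam` coins. -/
theorem small_sepL {κ lam : ℕ → ℕ} (hκ : LogConstructible κ) (hl : LogConstructible lam)
    (hκ1 : ∀ n, 1 ≤ κ n) (M : RTM) (c e : ℕ)
    (hM : M.Bounded (fun n => (n + 2) ^ c) (fun n => c * Nat.log 2 (n + 2)))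
    (hR : ∀ (x : List Bool) (v : Bool),
      M.probAt x v ((x.length + 2) ^ c) (2 ^ lam x.length + 1) M.init = 0) :
    ∃ (A : Set (List Bool)) (d : ℕ), DTISP (fun n => (n + 2) ^ κ n)
      (fun n => Nat.log 2 (n + 2) * (κ n + Nat.log 2 (Nat.log 2 (n + 2)) +
        lam n / (κ n * (Nat.log 2 (κ n * (Nat.log 2 (n + 2) / lam n + 1)) + 1)))) A ∧
      ∀ x : List Bool,
        (1 / ((x.length : ℚ) + 2) ^ (e * 2 ^ κ x.length) ≤
          M.probAt x true ((x.length + 2) ^ c) 0 M.init → x ∈ A) ∧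
        (M.probAt x true ((x.length + 2) ^ c) 0 M.init <
          1 / ((x.length : ℚ) + 2) ^ (d * 2 ^ κ x.length) → x ∉ A) := by
  obtain ⟨Q, C, hC, hQ⟩ := PT.IsPrL.machine (lfx_of_constructible hl) M c hM hR
  obtain ⟨A, d, hA, h⟩ := small_gen Q e (lfx_of_constructible hκ) hκ1
    (s := fun n => Nat.log 2 (n + 2) * (κ n + Nat.log 2 (Nat.log 2 (n + 2)) +
      lam n / (κ n * (Nat.log 2 (κ n * (Nat.log 2 (n + 2) / lam n + 1)) + 1))))
    (fun E => PT.bd_few (one Q) E C hκ1 (fun x =>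
      (hC x).trans (Nat.mul_le_mul_left _ (Nat.le_add_right _ _))))
  refine ⟨A, d, hA, fun x => ?_⟩
  have h1 := h x
  rw [hQ] at h1
  exact h1

end Vale.Agent.P313.SV
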