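import Vale.Agent.P313.R2.H284.Sav

/-!
The stack machine for reachability is computed in the class `LF`.
-/

namespace Vale.Agent.P313.TS

open Finset SV

/-- The indicator of the edges. -/
noncomputable def edg (T c0 : ℕ) (a : ℕ → ℕ → ℕ → ℕ) (v u : ℕ) : ℕ :=
  ind (∃ c < T + 1, c0 < a c v u)

theorem edg_le (T c0 : ℕ) (a : ℕ → ℕ → ℕ → ℕ) (v u : ℕ) : edg T c0 a v u ≤ 1 := by
  unfold edg
  by_cases h : ∃ c < T + 1, c0 < a c v u
  · rw [ind_true h]
  · rw [ind_false h]; omega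

theorem edg_ne {T c0 : ℕ} {a : ℕ → ℕ → ℕ → ℕ} {v u : ℕ} :
    edg T c0 a v u ≠ 0 ↔ ∃ c < T + 1, c0 < a c v u := by
  unfold edg
  by_cases h : ∃ c < T + 1, c0 < a c v u
  · rw [ind_true h]; exact ⟨fun _ => h, fun _ => one_ne_zero⟩
  · rw [ind_false h]; exact ⟨fun h1 => absurd rfl h1, fun h1 => absurd h1 h⟩

theorem lf_edg {a : Inp → ℕ → ℕ → ℕ → ℕ → ℕ} {T c0 : Inp → ℕ}
    (lT : ∀ k, LF (fun I _ => T I : Fn k)) (lc : ∀ k, LF (fun I _ => c0 I : Fn k))
    (la : ∀ {m : ℕ} {b c v u : Fn m}, LF b → LF c → LF v → LF u →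
      LF (fun I x => a I (b I x) (c I x) (v I x) (u I x)))
    {m : ℕ} {b v u : Fn m} (hb : LF b) (hv : LF v) (hu : LF u) :
    LF (fun I x => edg (T I) (c0 I) (a I (b I x)) (v I x) (u I x)) := by
  have h1 := LFP.all (k := m) (n := fun I _ => T I + 1)
    (P := fun I z => ¬ c0 I < a I (b I (Fin.tail z)) (z 0) (v I (Fin.tail z)) (u I (Fin.tail z)))
    (LFP.not (LFP.lt (lc _) (la hb.weak (LF.proj 0) hv.weak hu.weak))) ((lT m).succ)
  have h2 : LFP (fun I x => ∃ c < T I + 1, c0 I < a I (b I x) c (v I x) (u I x)) := by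
    refine (LFP.not h1).congr (fun I x => ?_)
    simp only [Fin.tail_cons, Fin.cons_zero, not_forall, not_not, exists_prop]
  exact h2

section

variable {N : Inp → ℕ} {E : Inp → ℕ → ℕ → ℕ → ℕ}

theorem lf_sav_stp (lN : ∀ k, LF (fun I _ => N I : Fn k))
    (lE : ∀ {m : ℕ} {b v u : Fn m}, LF b → LF v → LF u →
      LF (fun I x => E I (b I x) (v I x) (u I x)))
    {m : ℕ} {P b top c : Fn m} (hP : LF P) (hb : LF b) (ht : LF top) (hc : LF c) :
    LF (fun I x => (sav (N I) (E I (b I x))).stp (P I x) (2 * N I) (top I x) (c I x)) := by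
  have hN := lN m
  have h0 := hc.mod hP
  have h1 := (hc.div hP).mod hP
  have h2 := ((hc.div hP).div hP).mod hP
  have h3 := ((hc.div hP).div hP).div hP
  have h4 := h3.mod hP
  have h5 := (h3.div hP).mod hP
  have h6 := ((h3.div hP).div hP).mod hP
  have h7 := ((h3.div hP).div hP).div hP
  have lq : ∀ {a q : Fn m} (i s : Fn m), LF a → LF q →
      LF (fun I x => (sav (N I) (E I (b I x))).qry (i I x) (a I x) (q I x) (s I x)) :=
    fun i s ha hq => LF.ite (LFP.eq (hq.mod (LF.const 2)) LF.zero)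
      ((ha.mod hN).add (hN.mul (hq.div (LF.const 2))))
      ((hq.div (LF.const 2)).add (hN.mul (ha.div hN)))
  have lu : ∀ {q s r : Fn m} (i a : Fn m), LF q → LF s → LF r →
      LF (fun I x => (sav (N I) (E I (b I x))).upd (i I x) (a I x) (q I x) (s I x) (r I x)) :=
    fun i a hq hs hr => LF.ite (LFP.eq hs (LF.const 2)) (LF.const 2)
      (LF.ite (LFP.eq (hq.mod (LF.const 2)) LF.zero)
        (LF.ite (LFP.eq hr LF.zero) LF.zero (LF.const 1))
        (LF.ite (LFP.eq hs (LF.const 1)) (LF.ite (LFP.eq hr LF.zero) LF.zero (LF.const 2))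
          LF.zero))
  have lo : ∀ {s : Fn m} (i a : Fn m), LF s →
      LF (fun I x => (sav (N I) (E I (b I x))).out (i I x) (a I x) (s I x)) :=
    fun i a hs => LF.ite (LFP.eq hs (LF.const 2)) (LF.const 1) LF.zero
  have lb : ∀ {a : Fn m}, LF a → LF (fun I x => (sav (N I) (E I (b I x))).base (a I x)) :=
    fun ha => lE hb (ha.mod hN) (ha.div hN)
  unfold RecD.stp
  exact LF.ite (LFP.eq h0 LF.zero)
    (LF.ite (LFP.eq h1 LF.zero) (XR.LF.rcf hP (LF.const 1) LF.zero (lb h2) h3)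
      (XR.LF.rcf hP LF.zero (h1.sub (LF.const 1)) (lq _ _ h2 LF.zero)
        (XR.LF.rfr hP h2 LF.zero LF.zero h3)))
    (LF.ite (LFP.eq h1 ht) hc
      (LF.ite (LFP.lt h5.succ ((LF.const 2).mul hN))
        (XR.LF.rcf hP LF.zero h1 (lq _ _ h4 h5.succ)
          (XR.LF.rfr hP h4 h5.succ (lu _ _ h5 h6 h2) h7))
        (XR.LF.rcf hP (LF.const 1) h1.succ (lo _ _ (lu _ _ h5 h6 h2)) h7)))

theorem lf_savC (lN : ∀ k, LF (fun I _ => N I : Fn k))
    (lE : ∀ {m : ℕ} {b v u : Fn m}, LF b → LF v → LF u →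
      LF (fun I x => E I (b I x) (v I x) (u I x)))
    {m : ℕ} {P M top a : Fn m} (hP : LF P) (hM : LF M) (ht : LF top) (ha : LF a) :
    LF (fun I x => savC (N I) (E I (M I x)) (P I x) (M I x) (top I x) (a I x)) := by
  have hc0 : LF (fun I x => RecD.cf (P I x) 0 (top I x) (a I x) 0) :=
    XR.LF.rcf hP LF.zero ht ha LF.zero
  have h1 := LF.iterate (k := m)
    (f := fun I z => (sav (N I) (E I (M I (Fin.tail z)))).stM (P I (Fin.tail z)) (2 * N I)
      (top I (Fin.tail z)) (M I (Fin.tail z)) (z 0))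
    (g := fun I x => RecD.cf (P I x) 0 (top I x) (a I x) 0) (n := M)
    (by
      unfold RecD.stM
      exact (lf_sav_stp lN lE hP.weak hM.weak ht.weak (LF.proj 0)).mod hM.weak.succ) hc0 hM
    (fun I x => RecD.cf (P I x) 0 (top I x) (a I x) 0 + M I x) (hc0.pb.add hM.pb)
    (fun I x i _ => by
      simp only [Fin.tail_cons, Fin.cons_zero]
      exact XR.stM_iter_le _ _ _ _ _ _ i)
  refine (((h1.div hP).div hP).mod hP).congr (fun I x => ?_)
  simp only [Fin.tail_cons, Fin.cons_zero]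
  rfl

end

end Vale.Agent.P313.TS
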