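import Vale.Agent.P313.R2.H284.SavL

/-!
The machine for reachability along the edges with probability above the error.
-/

namespace Vale.Agent.P313

namespace SV

open Finset RI

/-- The base of the budget. -/
noncomputable def bsD (Q : Chm) (e : ℕ) (κ : List Bool → ℕ) (x : List Bool) : ℕ :=
  (prD Q e κ x).XP * (2 * ((Q.T x + 1) * Q.N0 x)) * (κ x + 2)

/-- The budget. -/
noncomputable def bdS (Q : Chm) (e : ℕ) (κ : List Bool → ℕ) (x : List Bool) : ℕ :=
  bsD Q e κ x ^ (60 * ksD Q e κ x + 15 + (3 * κ x + 3))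

/-- The edges. -/
noncomputable def edD (Q : Chm) (e : ℕ) (κ : List Bool → ℕ) (x : List Bool) (v u : ℕ) : ℕ :=
  TS.edg (Q.T x) (cD Q e κ x) (aD Q e κ x) v u

/-- The set which is decided. -/
noncomputable def acS (Q : Chm) (e : ℕ) (κ s u : List Bool → ℕ) (x : List Bool) : Prop :=
  rch (Q.N0 x) (fun v u => edD Q e κ x v u ≠ 0) (κ x) (s x) (u x)

theorem N0_le_XP (Q : Chm) (e : ℕ) (κ : List Bool → ℕ) (x : List Bool) :
    Q.N0 x ≤ (prD Q e κ x).XP := by
  have h1 := Nc_le (Q := Q) (e := e) x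
  have h2 : (prD Q e κ x).N < (prD Q e κ x).N2 := Prm.N_lt_N2
  have h3 : (prD Q e κ x).N2 ≤ (prD Q e κ x).XP := by
    unfold Prm.XP
    generalize (prD Q e κ x).N2 = a1
    generalize (prD Q e κ x).Y2 = a2
    generalize ((prD Q e κ x).K + 1) * ((2 * (prD Q e κ x).P) ^ (prD Q e κ x).K * a2) = a3
    generalize 2 ^ (prD Q e κ x).J2 = a4
    omega
  rw [N_eq] at h2
  have h4 : Q.N0 x ≤ (Q.T x + 1) * Q.N0 x := Nat.le_mul_of_pos_left _ (Nat.succ_pos _)
  omega

theorem bsD_ge (Q : Chm) (e : ℕ) (κ : List Bool → ℕ) (x : List Bool) :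
    κ x < bsD Q e κ x ∧ 2 * Q.N0 x + 2 ≤ bsD Q e κ x ∧ Q.N0 x * Q.N0 x ≤ bsD Q e κ x ∧
      (prD Q e κ x).XP ≤ bsD Q e κ x := by
  have h1 := N0_le_XP Q e κ x
  have h2 := Prm.two_le_XP (q := prD Q e κ x)
  have hN := Q.N_pos x
  have h3 : 2 * Q.N0 x ≤ 2 * ((Q.T x + 1) * Q.N0 x) :=
    Nat.mul_le_mul_left _ (Nat.le_mul_of_pos_left _ (Nat.succ_pos _))
  unfold bsD
  generalize (prD Q e κ x).XP = X at *
  generalize 2 * ((Q.T x + 1) * Q.N0 x) = G at *
  generalize Q.N0 x = N at *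
  generalize κ x = k at *
  have hG : 2 ≤ G := by omega
  have e1 : 2 * G ≤ X * G := Nat.mul_le_mul_right _ h2
  have e2 : X * G * 2 ≤ X * G * (k + 2) := Nat.mul_le_mul_left _ (by omega)
  have e3 : 1 * (k + 2) ≤ X * G * (k + 2) := Nat.mul_le_mul_right _ (by omega)
  have e4 : N * N ≤ X * G := Nat.mul_le_mul h1 (by omega)
  have e5 : X * 1 ≤ X * G := Nat.mul_le_mul_left _ (by omega)
  exact ⟨by omega, by omega, by omega, by omega⟩

end SV

namespace TS.Q

open RI Finset SV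

/-- Reachability as a machine. -/
theorem dec6 (Q : Chm) (e : ℕ) {κ s u : List Bool → ℕ} (hκ : Sel.LFx κ)
    (hs : Sel.LFx s) (hu : Sel.LFx u) (hsN : ∀ x, s x < Q.N0 x) (huN : ∀ x, u x < Q.N0 x) :
    ∃ (D : RTM) (d : ℕ), D.Deterministic ∧ ∀ (x : List Bool) (ω : ℕ → Bool),
      (∀ T, (x.length + bdS Q e κ x + 2) ^ d ≤ T → ∀ w : Bool,
        (w = true ↔ acS Q e κ s u x) → D.verdict (D.run x ω T).state = some w) ∧
      ∀ t i, ((D.run x ω t).work i).cells ≤
        d * Nat.log 2 (x.length + bdS Q e κ x + 2) +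
          (2 * (prD Q e κ x).JT + ksD Q e κ x) * (prD Q e κ x).wd + d := by
  set π : List Bool → Prm := prD Q e κ with hπd
  set A0 := AD Q e with hA0d
  set ks := ksD Q e κ with hksd
  have hlam := lfx_lamD Q e
  have hπ : PrmC π := CH.par_prmC (by norm_num) hκ hlam
  have hPK : ∀ k, P313.LF (fun x _ => (2 * (π x).P) ^ (π x).K : P313.Fn k) :=
    CH.par_PK (by norm_num) hκ hlam
  have hA0L : P313.LF (fun x a => A0 x (a 0) (a 1) : P313.Fn 2) := lf_AD Q e
  have hclip : ∀ x, (π x).Clip := CH.par_clip (by norm_num)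
  have hA0 : ∀ x, IsAut (A0 x) (π x).N := fun x =>
    isAut_autW (ckb_closed (Q.N_pos x) (Q.cl x) _) 1
  have hiks : ∀ x, 4 * ks x < (π x).XP ^ 5 := CH.stages_lt (by norm_num)
  have hT := PrmT.of hπ hPK
  have lks : ∀ k, LF (fun I _ => ks I.word : Fn k) := fun k => LF.ofOld ((CH.lfx_k hκ).lf k)
  have lκ : ∀ k, LF (fun I _ => κ I.word : Fn k) := fun k => LF.ofOld (hκ.lf k)
  have ls : ∀ k, LF (fun I _ => s I.word : Fn k) := fun k => LF.ofOld (hs.lf k)
  have lu : ∀ k, LF (fun I _ => u I.word : Fn k) := fun k => LF.ofOld (hu.lf k)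
  have lN0 : ∀ k, LF (fun I _ => Q.N0 I.word : Fn k) := fun k => LF.ofOld (Q.lfN.lf k)
  have lT : ∀ k, LF (fun I _ => Q.T I.word : Fn k) := fun k => LF.ofOld (Q.lfT.lf k)
  have lS : ∀ k, LF (fun I _ => CH.sN (dum Q e) I.word : Fn k) := fun k =>
    LF.ofOld (CH.lfx_N.lf k)
  have lB : ∀ k, LF (fun I _ => (Q.T I.word + 1) * Q.N0 I.word : Fn k) := fun k =>
    (lT k).succ.mul (lN0 k)
  have lXP : ∀ k, LF (fun I _ => (π I.word).XP : Fn k) := fun k => XR.lf_XP hπ hPK
  have lY : ∀ k, LF (fun I _ => (π I.word).Y : Fn k) := fun k => hT.Y k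
  have lc : ∀ k, LF (fun I _ => cD Q e κ I.word : Fn k) := fun k =>
    ((lY k).div ((LF.const 4).mul (lS k))).add (LF.const 1)
  have lbs : ∀ k, LF (fun I _ => bsD Q e κ I.word : Fn k) := fun k =>
    ((lXP k).mul ((LF.const 2).mul (lB k))).mul ((lκ k).add (LF.const 2))
  have lrd := lf_rdq hT
  have lg0 : LF (fun I a => ind (bdS Q e κ I.word ≤ a 0) : Fn 1) :=
    LFP.powLe (lbs 1)
      ((((LF.const 60).mul (lks 1)).add (LF.const 15)).add
        (((LF.const 3).mul (lκ 1)).add (LF.const 3)))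
      (LF.proj 0)
  have lX : LF (fun I a => runX π A0 (rdq π) I (a 0) (a 1) (a 2) (a 3) (a 4) : Fn 5) :=
    lf_runX hπ hPK hA0L lrd (LF.proj 0) (LF.proj 1) (LF.proj 2) (LF.proj 3) (LF.proj 4)
  have hXP1 : ∀ x, 1 ≤ (π x).XP := fun x => by
    have := Prm.two_le_XP (q := π x); omega
  have hYXP : ∀ x, (π x).Y ≤ (π x).XP := fun x => by
    unfold Prm.XP
    generalize (π x).N2 = a1
    generalize (π x).Y2 = a2
    generalize ((π x).K + 1) * ((2 * (π x).P) ^ (π x).K * a2) = a3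
    generalize 2 ^ (π x).J2 = a4
    omega
  have hbs := bsD_ge Q e κ
  have hbd1 : ∀ x, (π x).XP ^ (60 * ks x + 15) ≤ bdS Q e κ x := by
    intro x
    have h1 := hbs x
    refine (Nat.pow_le_pow_left h1.2.2.2 _).trans ?_
    exact Nat.pow_le_pow_right (by omega) (Nat.le_add_right _ _)
  have hXc : ∀ (I : Inp) (Bg a i : ℕ), a ≤ 1 → i ≤ ks I.word →
      bdS Q e κ I.word ≤ Bg →
      (π I.word).Agr (runX π A0 (rdq π) I Bg a i) ((π I.word).XA (A0 I.word) (rdq π I) a i) := by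
    intro I Bg a i _ hi hB v hv y hy
    refine runX_eq (hclip _).Y_pos (hclip _).hG (hA0 _) ?_ ?_ hv (lt_of_lt_of_le hy (hYXP _))
    · have := hiks I.word
      (clear * - hi this; omega)
    · refine le_trans (Nat.pow_le_pow_right (hXP1 _) ?_) ((hbd1 I.word).trans hB)
      omega
  set sc : Inp → ℕ → ℕ → ℕ → ℕ := fun I Bg v u => ∑ y ∈ range (π I.word).Y,
    if runX π A0 (rdq π) I Bg ((ks I.word + 1) % 2) (ks I.word) v y = u then 1 else 0 with hsc
  have lsc : ∀ {m : ℕ} {b v u : Fn m}, LF b → LF v → LF u →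
      LF (fun I a => sc I (b I a) (v I a) (u I a)) := by
    intro m b v u hb hv hu
    have h1 := LF.cntEq (k := m) (n := fun I _ => (π I.word).Y)
      (f := fun I c => runX π A0 (rdq π) I (b I (Fin.tail c)) ((ks I.word + 1) % 2) (ks I.word)
        (v I (Fin.tail c)) (c 0)) (v := u)
      (LF.comp5 lX hb.weak ((lks _).succ.mod (LF.const 2)) (lks _) hv.weak (LF.proj 0))
      (hT.Y _) hu
    refine h1.congr (fun I a => ?_)
    simp only [Fin.tail_cons, Fin.cons_zero]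
    rfl
  set aI : Inp → ℕ → ℕ → ℕ → ℕ → ℕ := fun I Bg c v u =>
    if c * Q.N0 I.word + v ≤ CH.sN (dum Q e) I.word then sc I Bg (c * Q.N0 I.word + v) u else 0
    with haI
  have la : ∀ {m : ℕ} {b c v u : Fn m}, LF b → LF c → LF v → LF u →
      LF (fun I x => aI I (b I x) (c I x) (v I x) (u I x)) := by
    intro m b c v u hb hc hv hu
    have hcv : LF (fun I x => c I x * Q.N0 I.word + v I x) := (hc.mul (lN0 m)).add hv
    exact LF.ite (LFP.le hcv (lS m)) (lsc hb hcv hu) LF.zero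
  have lE : ∀ {m : ℕ} {b v u : Fn m}, LF b → LF v → LF u →
      LF (fun I x => edg (Q.T I.word) (cD Q e κ I.word) (aI I (b I x)) (v I x) (u I x)) :=
    fun hb hv hu => lf_edg (a := aI) (T := fun I => Q.T I.word) (c0 := fun I => cD Q e κ I.word)
      lT lc la hb hv hu
  have lfin := lf_savC (N := fun I => Q.N0 I.word)
    (E := fun I Bg v u => edg (Q.T I.word) (cD Q e κ I.word) (aI I Bg) v u) lN0 lE
    (m := 1) (P := fun I _ => bsD Q e κ I.word) (M := fun _ a => a 0)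
    (top := fun I _ => κ I.word) (a := fun I _ => s I.word + Q.N0 I.word * u I.word)
    (lbs 1) (LF.proj 0) (lκ 1) ((ls 1).add ((lN0 1).mul (lu 1)))
  refine gen_machine (A0 := A0) (ks := ks) (bd := bdS Q e κ)
    (Q := fun x => acS Q e κ s u x)
    hT lks lg0 hclip hA0 lX hXc lfin ?_
  intro I hI
  have haX : aI I (bdS Q e κ I.word) = aD Q e κ I.word := by
    funext c v u
    simp only [haI]
    unfold aD
    rw [N_eq]
    by_cases hc : c * Q.N0 I.word + v ≤ CH.sN (dum Q e) I.word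
    · rw [if_pos hc, if_pos hc]
      simp only [hsc]
      unfold Prm.scX
      rw [card_filter]
      refine sum_congr rfl fun y hy => ?_
      have h1 := hXc I (bdS Q e κ I.word) ((ks I.word + 1) % 2) (ks I.word)
        (by omega) le_rfl le_rfl (c * Q.N0 I.word + v) hc y (mem_range.1 hy)
      rw [h1, hI]
    · rw [if_neg hc, if_neg hc]
  obtain ⟨b1, b2, b3, b4⟩ := hbs I.word
  have hN := Q.N_pos I.word
  have h1 := savC_ne (N := Q.N0 I.word) (E := edD Q e κ I.word) (P := bsD Q e κ I.word)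
    (M := bdS Q e κ I.word) (top := κ I.word) hN (fun v u => edg_le _ _ _ v u)
    (show 2 < bsD Q e κ I.word by omega) b1 b2 b3
    (Nat.pow_le_pow_right (by omega) (Nat.le_add_left _ _)) (hsN I.word) (huN I.word)
  show savC (Q.N0 I.word) (fun v u => edg (Q.T I.word) (cD Q e κ I.word)
    (aI I (bdS Q e κ I.word)) v u) (bsD Q e κ I.word) (bdS Q e κ I.word) (κ I.word)
    (s I.word + Q.N0 I.word * u I.word) ≠ 0 ↔ acS Q e κ s u I.word
  rw [haX]
  exact h1

end TS.Q

end Vale.Agent.P313
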